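/-
R226, layer A1 (helper842): the Riemannian metric of the instance in a fixed chart.

`gm x₀ a u v = ⟪D(φ⁻¹)(a) u, D(φ⁻¹)(a) v⟫`, `φ = chartAt x₀`, `a ∈ φ.target`; `Gm x₀` its Christoffel
form; `isLC_gm : CF.IsLC φ.target (gm x₀) (Gm x₀)`.
-/
import Crest.Agent.R226.Defs_484
import Crest.Agent.R244.ChartMetric

set_option autoImplicit false
set_option maxSynthPendingDepth 3
set_option linter.unusedSectionVars false
set_option linter.unusedVariables false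

open Bundle Set Filter Topology
open scoped ContDiff Manifold
open Crest.GeometryTopology.MTW Crest.Agent.R244

noncomputable section

namespace Crest.Agent.R226.ChartMet842

variable {n : ℕ} {M : Type*} [MetricSpace M] [ChartedSpace (EuclideanSpace ℝ (Fin n)) M]
  [IsManifold (𝓡 n) ∞ M]
  [RiemannianBundle (fun p : M => TangentSpace (𝓡 n) p)]
  [IsContMDiffRiemannianBundle (𝓡 n) ∞ (EuclideanSpace ℝ (Fin n)) (fun p : M => TangentSpace (𝓡 n) p)]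

variable (n M) in
/-- the metric of the instance as a smooth section of bilinear forms -/
def gS (x : M) : TangentSpace (𝓡 n) x →L[ℝ] TangentSpace (𝓡 n) x →L[ℝ] ℝ :=
  Classical.choose (IsContMDiffRiemannianBundle.exists_contMDiff (IB := 𝓡 n) (n := ∞)
      (F := EuclideanSpace ℝ (Fin n)) (E := fun x : M => TangentSpace (𝓡 n) x)) x

theorem contMDiff_gS : ContMDiff (𝓡 n)
    ((𝓡 n).prod 𝓘(ℝ, EuclideanSpace ℝ (Fin n) →L[ℝ] EuclideanSpace ℝ (Fin n) →L[ℝ] ℝ)) ∞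
    (fun b : M => TotalSpace.mk' (EuclideanSpace ℝ (Fin n) →L[ℝ] EuclideanSpace ℝ (Fin n) →L[ℝ] ℝ)
      (E := fun x : M => TangentSpace (𝓡 n) x →L[ℝ] TangentSpace (𝓡 n) x →L[ℝ] ℝ) b (gS n M b)) :=
  (Classical.choose_spec (IsContMDiffRiemannianBundle.exists_contMDiff (IB := 𝓡 n) (n := ∞)
      (F := EuclideanSpace ℝ (Fin n)) (E := fun x : M => TangentSpace (𝓡 n) x))).1

theorem gS_apply (x : M) (v w : TangentSpace (𝓡 n) x) : gS n M x v w = inner ℝ v w :=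
  ((Classical.choose_spec (IsContMDiffRiemannianBundle.exists_contMDiff (IB := 𝓡 n) (n := ∞)
      (F := EuclideanSpace ℝ (Fin n)) (E := fun x : M => TangentSpace (𝓡 n) x))).2 x v w).symm

variable (n M) in
/-- the metric of the instance as a `ContMDiffRiemannianMetric` -/
def gR : ContMDiffRiemannianMetric (𝓡 n) ∞ (EuclideanSpace ℝ (Fin n))
    (fun x : M => TangentSpace (𝓡 n) x) where
  inner b := gS n M b
  symm b v w := by rw [gS_apply, gS_apply, real_inner_comm]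
  pos b v hv := by rw [gS_apply]; exact real_inner_self_pos.2 hv
  isVonNBounded b := by
    have h : {v : TangentSpace (𝓡 n) b | gS n M b v v < 1} = Metric.ball 0 1 := by
      ext v
      rw [Set.mem_ofPred_eq, gS_apply, real_inner_self_eq_norm_sq, mem_ball_zero_iff]
      constructor
      · intro h; nlinarith [norm_nonneg v]
      · intro h; nlinarith [norm_nonneg v]
    rw [h]
    exact NormedSpace.isVonNBounded_ball ℝ _ 1
  contMDiff := contMDiff_gS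

local notation "𝔼" => EuclideanSpace ℝ (Fin n)

/-- The metric in the chart `x₀`: `gm x₀ a u v = ⟪D(φ⁻¹)(a) u, D(φ⁻¹)(a) v⟫`, `φ = chartAt x₀`. -/
def gm (x₀ : M) (a : 𝔼) : 𝔼 →L[ℝ] 𝔼 →L[ℝ] ℝ := gC (gR n M) x₀ a

/-- The Christoffel form of the metric in the chart `x₀`. -/
def Gm (x₀ : M) (a : 𝔼) : 𝔼 →L[ℝ] 𝔼 →L[ℝ] 𝔼 :=
  CF.Gam (Crest.GeometryTopology.Geodesic.metricInChart (gR n M) x₀) a

theorem isLC_gm (x₀ : M) : CF.IsLC (chartAt 𝔼 x₀).target (gm x₀) (Gm x₀) := by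
  have h := CF.isLC_of_isRiemannianOn (isRiemannianOn_metricInChart (gR n M) x₀)
  have e : CF.gB (Crest.GeometryTopology.Geodesic.metricInChart (gR n M) x₀) = gm x₀ := by
    funext a; exact gB_eq_gC _ _ _
  rw [e] at h
  exact h

/-- the derivative of the inverse chart, as a map into the tangent space. -/
def dS (x₀ : M) (a : 𝔼) : 𝔼 →L[ℝ] TangentSpace (𝓡 n) ((chartAt 𝔼 x₀).symm a) :=
  mfderiv 𝓘(ℝ, 𝔼) (𝓡 n) (chartAt 𝔼 x₀).symm a

/-- the derivative of the chart. -/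
def dC (x₀ : M) (p : M) : TangentSpace (𝓡 n) p →L[ℝ] 𝔼 :=
  mfderiv (𝓡 n) 𝓘(ℝ, 𝔼) (chartAt 𝔼 x₀) p

theorem gm_apply (x₀ : M) (a u v : 𝔼) :
    gm x₀ a u v = inner ℝ (dS x₀ a u) (dS x₀ a v) := by
  exact gS_apply _ _ _

theorem mdifferentiable_chart' (x₀ : M) :
    (chartAt 𝔼 x₀).MDifferentiable (𝓡 n) 𝓘(ℝ, 𝔼) := mdifferentiable_chart x₀

theorem dC_dS (x₀ : M) {a : 𝔼} (ha : a ∈ (chartAt 𝔼 x₀).target) (u : 𝔼) :
    dC x₀ ((chartAt 𝔼 x₀).symm a) (dS x₀ a u) = u := by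
  have h1 := (mdifferentiable_chart' x₀).comp_symm_deriv ha
  exact congrArg (fun L : 𝔼 →L[ℝ] 𝔼 => L u) h1

theorem dS_dC (x₀ : M) {p : M} (hp : p ∈ (chartAt 𝔼 x₀).source) (v : TangentSpace (𝓡 n) p) :
    (dS x₀ (chartAt 𝔼 x₀ p) (dC x₀ p v) : 𝔼) = v := by
  have h1 := (mdifferentiable_chart' x₀).symm_comp_deriv hp
  exact congrArg (fun L : TangentSpace (𝓡 n) p →L[ℝ] TangentSpace (𝓡 n) p => L v) h1

theorem inner_congr {p q : M} (h : p = q) (v w : 𝔼) :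
    @inner ℝ (TangentSpace (𝓡 n) p) _ v w = @inner ℝ (TangentSpace (𝓡 n) q) _ v w := by
  subst h; rfl

theorem norm_congr {p q : M} (h : p = q) (v : 𝔼) :
    @norm (TangentSpace (𝓡 n) p) _ v = @norm (TangentSpace (𝓡 n) q) _ v := by
  subst h; rfl

/-- inner product at a point in the chart -/
theorem inner_eq_gm (x₀ : M) {p : M} (hp : p ∈ (chartAt 𝔼 x₀).source)
    (v w : TangentSpace (𝓡 n) p) :
    inner ℝ v w = gm x₀ (chartAt 𝔼 x₀ p) (dC x₀ p v) (dC x₀ p w) := by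
  rw [gm_apply]
  have h := (chartAt 𝔼 x₀).left_inv hp
  have e1 := dS_dC x₀ hp v
  have e2 := dS_dC x₀ hp w
  have := inner_congr (n := n) h (dS x₀ (chartAt 𝔼 x₀ p) (dC x₀ p v))
    (dS x₀ (chartAt 𝔼 x₀ p) (dC x₀ p w))
  refine Eq.trans ?_ this.symm
  rw [e1, e2]

theorem norm_sq_eq_gm (x₀ : M) {p : M} (hp : p ∈ (chartAt 𝔼 x₀).source)
    (v : TangentSpace (𝓡 n) p) :
    ‖v‖ ^ 2 = gm x₀ (chartAt 𝔼 x₀ p) (dC x₀ p v) (dC x₀ p v) := by
  rw [← inner_eq_gm x₀ hp, real_inner_self_eq_norm_sq]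

theorem norm_sq_dS (x₀ : M) (a u : 𝔼) : ‖dS x₀ a u‖ ^ 2 = gm x₀ a u u := by
  rw [gm_apply, real_inner_self_eq_norm_sq]

theorem norm_dS (x₀ : M) (a u : 𝔼) : ‖dS x₀ a u‖ = √(gm x₀ a u u) := by
  rw [← norm_sq_dS, Real.sqrt_sq (norm_nonneg _)]

theorem norm_eq_sqrt_gm (x₀ : M) {p : M} (hp : p ∈ (chartAt 𝔼 x₀).source)
    (v : TangentSpace (𝓡 n) p) :
    ‖v‖ = √(gm x₀ (chartAt 𝔼 x₀ p) (dC x₀ p v) (dC x₀ p v)) := by
  rw [← norm_sq_eq_gm x₀ hp, Real.sqrt_sq (norm_nonneg _)]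

/-- velocity of a curve given in the chart -/
theorem curveVel_symm (x₀ : M) {c : ℝ → 𝔼} {c' : 𝔼} {t : ℝ} (hc : HasDerivAt c c' t)
    (ha : c t ∈ (chartAt 𝔼 x₀).target) :
    curveVel n (fun s => (chartAt 𝔼 x₀).symm (c s)) t = dS x₀ (c t) c' := by
  have h1 : HasMFDerivAt 𝓘(ℝ, ℝ) 𝓘(ℝ, 𝔼) c t (ContinuousLinearMap.toSpanSingleton ℝ c') :=
    hc.hasFDerivAt.hasMFDerivAt
  have h2 : HasMFDerivAt 𝓘(ℝ, 𝔼) (𝓡 n) (chartAt 𝔼 x₀).symm (c t) (dS x₀ (c t)) :=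
    ((mdifferentiable_chart' x₀).symm.mdifferentiableAt ha).hasMFDerivAt
  have h3 := (h2.comp t h1).mfderiv
  unfold curveVel
  have h4 : ((chartAt 𝔼 x₀).symm ∘ c) = fun s => (chartAt 𝔼 x₀).symm (c s) := rfl
  rw [h4] at h3
  rw [h3]
  change dS x₀ (c t) (ContinuousLinearMap.toSpanSingleton ℝ c' (1 : ℝ)) = dS x₀ (c t) c'
  rw [ContinuousLinearMap.toSpanSingleton_apply, one_smul]

theorem mdifferentiableAt_symm_comp (x₀ : M) {c : ℝ → 𝔼} {t : ℝ} (hc : DifferentiableAt ℝ c t)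
    (ha : c t ∈ (chartAt 𝔼 x₀).target) :
    MDifferentiableAt 𝓘(ℝ, ℝ) (𝓡 n) (fun s => (chartAt 𝔼 x₀).symm (c s)) t :=
  MDifferentiableAt.comp t ((mdifferentiable_chart' x₀).symm.mdifferentiableAt ha)
    hc.mdifferentiableAt

/-- derivative of the chart expression of a curve in `M` -/
theorem hasDerivAt_chart (x₀ : M) {γ : ℝ → M} {t : ℝ}
    (hγ : MDifferentiableAt 𝓘(ℝ, ℝ) (𝓡 n) γ t) (hp : γ t ∈ (chartAt 𝔼 x₀).source) :
    HasDerivAt (fun s => chartAt 𝔼 x₀ (γ s)) (dC x₀ (γ t) (curveVel n γ t)) t := by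
  have h2 : HasMFDerivAt (𝓡 n) 𝓘(ℝ, 𝔼) (chartAt 𝔼 x₀) (γ t) (dC x₀ (γ t)) :=
    ((mdifferentiable_chart' x₀).mdifferentiableAt hp).hasMFDerivAt
  have h3 := h2.comp t hγ.hasMFDerivAt
  have h4 : HasFDerivAt (fun s => chartAt 𝔼 x₀ (γ s))
      ((dC x₀ (γ t)).comp (mfderiv 𝓘(ℝ, ℝ) (𝓡 n) γ t) : ℝ →L[ℝ] 𝔼) t := h3.hasFDerivAt
  exact h4.hasDerivAt

theorem norm_sq_curveVel (x₀ : M) {γ : ℝ → M} {t : ℝ}
    (hp : γ t ∈ (chartAt 𝔼 x₀).source) :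
    ‖curveVel n γ t‖ ^ 2 = gm x₀ (chartAt 𝔼 x₀ (γ t)) (dC x₀ (γ t) (curveVel n γ t))
      (dC x₀ (γ t) (curveVel n γ t)) :=
  norm_sq_eq_gm x₀ hp _

end Crest.Agent.R226.ChartMet842
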