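import Mathlib
import Crest.Agent.R244.CNInt

/-!
R226, task A4 (helper549): transfer of local minimality from a chart to the distance of `M`.

`lower`: if `h` is a function on an open subset `O` of the chart at `x0`, vanishing at `a`, with
`(D h_b w)² ≤ 2 h(b) g_b(w,w)` (Gauss lemma for the energy), with compact sublevel sets
`{2h ≤ r²}` for `r < ρ`, then every `y` with `dist (φ⁻¹ a) y < ρ` is in the chart domain `O` and
`2 h (φ y) ≤ dist² `.
-/

set_option autoImplicit false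

open Set Filter Topology MeasureTheory Manifold Bundle
open scoped ENNReal NNReal ContDiff Manifold
open Crest.Agent.R244.CNInt

noncomputable section

namespace Crest.Agent.R226.DistLoc549

section

variable {E : Type*} [NormedAddCommGroup E] [NormedSpace ℝ E]
  {M : Type*} [TopologicalSpace M] [T2Space M] [ChartedSpace E M]
  [RiemannianBundle (fun x : M => TangentSpace 𝓘(ℝ, E) x)]
  [IsManifold 𝓘(ℝ, E) 1 M]
  [IsContinuousRiemannianBundle E (fun x : M => TangentSpace 𝓘(ℝ, E) x)]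

/-- real-variable core: `f' ² ≤ 2 f r²`, `f 0 = 0`, `f ≥ 0` implies `√(2 f t) ≤ r t`. -/
theorem sqrt_two_mul_le {f f' : ℝ → ℝ} {r T : ℝ} (hT : 0 ≤ T) (hr : 0 ≤ r) (h0 : f 0 = 0)
    (hnn : ∀ s ∈ Icc (0:ℝ) T, 0 ≤ f s) (hc : ContinuousOn f (Icc 0 T))
    (hd : ∀ s ∈ Ioo (0:ℝ) T, HasDerivAt f (f' s) s)
    (hb : ∀ s ∈ Ioo (0:ℝ) T, (f' s) ^ 2 ≤ 2 * f s * r ^ 2) :
    Real.sqrt (2 * f T) ≤ r * T := by
  -- for each ε > 0
  have key : ∀ ε : ℝ, 0 < ε → Real.sqrt (2 * f T) ≤ r * T + ε := by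
    intro ε hε
    set F : ℝ → ℝ := fun s => Real.sqrt (2 * f s + ε ^ 2) with hF
    have hpos : ∀ s ∈ Icc (0:ℝ) T, 0 < 2 * f s + ε ^ 2 := by
      intro s hs
      have := hnn s hs
      positivity
    have hFc : ContinuousOn F (Icc 0 T) := by
      apply ContinuousOn.sqrt
      exact (continuousOn_const.mul hc).add continuousOn_const
    have hFd : ∀ s ∈ Ioo (0:ℝ) T, HasDerivAt F ((2 * f' s) / (2 * Real.sqrt (2 * f s + ε ^ 2))) s := by
      intro s hs
      have h1 : HasDerivAt (fun s => 2 * f s + ε ^ 2) (2 * f' s) s :=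
        ((hd s hs).const_mul 2).add_const _
      exact h1.sqrt (hpos s (Ioo_subset_Icc_self hs)).ne'
    have hFb : ∀ s ∈ Ioo (0:ℝ) T, deriv F s ≤ r := by
      intro s hs
      rw [(hFd s hs).deriv]
      have hp := hpos s (Ioo_subset_Icc_self hs)
      have hsp : 0 < Real.sqrt (2 * f s + ε ^ 2) := Real.sqrt_pos.2 hp
      rw [div_le_iff₀ (by positivity)]
      have h2 : f' s ≤ r * Real.sqrt (2 * f s + ε ^ 2) := by
        apply le_of_sq_le_sq _ (by positivity)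
        rw [mul_pow, Real.sq_sqrt hp.le]
        have h3 := hb s hs
        nlinarith [sq_nonneg r, sq_nonneg ε, mul_nonneg (sq_nonneg r) (sq_nonneg ε)]
      linarith
    have hmv := (convex_Icc (0:ℝ) T).image_sub_le_mul_sub_of_deriv_le hFc
      (by
        rw [interior_Icc]
        intro s hs
        exact (hFd s hs).differentiableAt.differentiableWithinAt)
      (by
        rw [interior_Icc]
        exact hFb) 0 (left_mem_Icc.2 hT) T (right_mem_Icc.2 hT) hT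
    have hF0 : F 0 = ε := by
      simp only [hF, h0, mul_zero, zero_add]
      exact Real.sqrt_sq hε.le
    have h4 : Real.sqrt (2 * f T) ≤ F T := by
      apply Real.sqrt_le_sqrt
      have : 0 ≤ ε ^ 2 := by positivity
      linarith
    rw [hF0] at hmv
    linarith
  exact le_of_forall_pos_le_add key

/-- **Lower bound along a path.**  `h` is (half the square of) the chart energy from `a`. -/
theorem energy_le_of_path {x0 : M} {G : E → E →L[ℝ] E →L[ℝ] ℝ} (hG : IsChartMetric x0 G)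
    {O : Set E} (hO : IsOpen O) (hOU : O ⊆ (chartAt E x0).target) {a : E} (ha : a ∈ O)
    {h : E → ℝ} (h0 : h a = 0) (hnn : ∀ b ∈ O, 0 ≤ h b)
    (hd : ∀ b ∈ O, DifferentiableAt ℝ h b ∧ ∀ w, (fderiv ℝ h b w) ^ 2 ≤ 2 * h b * G b w w)
    {r : ℝ} (hr : 0 < r) (hK : IsCompact {b ∈ O | 2 * h b ≤ r ^ 2})
    {γ : ℝ → M} (hγ : ContMDiff 𝓘(ℝ, ℝ) 𝓘(ℝ, E) 1 γ) {r' : ℝ} (hr' : 0 ≤ r') (hrr : r' < r)
    (hs : ∀ t : ℝ, ‖mfderiv 𝓘(ℝ, ℝ) 𝓘(ℝ, E) γ t 1‖ ≤ r') (hγ0 : γ 0 = (chartAt E x0).symm a) :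
    ∀ t ∈ Icc (0:ℝ) 1, γ t ∈ (chartAt E x0).source ∧ chartAt E x0 (γ t) ∈ O ∧
      Real.sqrt (2 * h (chartAt E x0 (γ t))) ≤ r' * t := by
  set φ := chartAt E x0 with hφ
  set K : Set E := {b ∈ O | 2 * h b ≤ r ^ 2} with hKdef
  have haU : a ∈ φ.target := hOU ha
  have haK : a ∈ K := ⟨ha, by rw [h0, mul_zero]; positivity⟩
  have hKO : K ⊆ O := fun b hb => hb.1
  -- the compact set in `M`
  set A : Set M := φ.symm '' K with hA
  have hAc : IsCompact A := by
    apply hK.image_of_continuousOn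
    exact φ.continuousOn_symm.mono (hKO.trans hOU)
  have hAmem : ∀ y : M, y ∈ A ↔ (y ∈ φ.source ∧ φ y ∈ K) := by
    intro y
    constructor
    · rintro ⟨b, hb, rfl⟩
      exact ⟨φ.map_target (hOU (hKO hb)), by rwa [φ.right_inv (hOU (hKO hb))]⟩
    · rintro ⟨h1, h2⟩
      exact ⟨φ y, h2, φ.left_inv h1⟩
  have hAclosed : IsClosed A := hAc.isClosed
  -- estimate on intervals that stay in A
  have hest : ∀ t ∈ Icc (0:ℝ) 1, (∀ s ∈ Icc (0:ℝ) t, γ s ∈ A) →
      Real.sqrt (2 * h (φ (γ t))) ≤ r' * t := by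
    intro t ht hin
    have hin' : ∀ s ∈ Icc (0:ℝ) t, γ s ∈ φ.source ∧ φ (γ s) ∈ O := by
      intro s hs'
      obtain ⟨h1, h2⟩ := (hAmem _).1 (hin s hs')
      exact ⟨h1, hKO h2⟩
    have hdiff : ∀ s ∈ Icc (0:ℝ) t, HasDerivAt (fun s => h (φ (γ s)))
        (fderiv ℝ h (φ (γ s)) (deriv (fun s => φ (γ s)) s)) s := by
      intro s hs'
      obtain ⟨h1, h2⟩ := hin' s hs'
      have h3 := (mfderiv_eq_chart hγ h1).1
      exact (hd _ h2).1.hasFDerivAt.comp_hasDerivAt s h3.hasDerivAt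
    apply sqrt_two_mul_le (f := fun s => h (φ (γ s)))
      (f' := fun s => fderiv ℝ h (φ (γ s)) (deriv (fun s => φ (γ s)) s)) ht.1 hr'
    · simp only [hγ0]
      rw [φ.right_inv haU, h0]
    · intro s hs'
      exact hnn _ (hin' s hs').2
    · intro s hs'
      exact (hdiff s hs').continuousAt.continuousWithinAt
    · intro s hs'
      exact hdiff s (Ioo_subset_Icc_self hs')
    · intro s hs'
      obtain ⟨h1, h2⟩ := hin' s (Ioo_subset_Icc_self hs')
      refine ((hd _ h2).2 _).trans ?_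
      have h4 := (mfderiv_eq_chart hγ h1).2
      have h5 := hG (φ (γ s)) (hOU h2) (deriv (fun s => φ (γ s)) s)
      have h8 : G (φ (γ s)) (deriv (fun s => φ (γ s)) s) (deriv (fun s => φ (γ s)) s) =
          ‖mfderiv 𝓘(ℝ, ℝ) 𝓘(ℝ, E) γ s 1‖ ^ 2 := h5.trans (congrArg (fun x : ℝ => x ^ 2) h4.symm)
      have h6 : ‖mfderiv 𝓘(ℝ, ℝ) 𝓘(ℝ, E) γ s 1‖ ^ 2 ≤ r' ^ 2 := by
        have := hs s
        gcongr
      have h7 := hnn _ h2
      rw [h8]
      gcongr
  -- continuity induction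
  have hsub : Icc (0:ℝ) 1 ⊆ γ ⁻¹' A := by
    have hcl : IsClosed (γ ⁻¹' A ∩ Icc 0 1) :=
      (hAclosed.preimage hγ.continuous).inter isClosed_Icc
    apply hcl.Icc_subset_of_forall_mem_nhdsGT_of_Icc_subset
    · change γ 0 ∈ A
      rw [hγ0]
      exact ⟨a, haK, rfl⟩
    · rintro t ⟨ht0, ht1⟩ hin
      have h1 := hest t ⟨ht0, ht1.le⟩ hin
      obtain ⟨h2, h3⟩ := (hAmem _).1 (hin (right_mem_Icc.2 ht0))
      have h4 : Real.sqrt (2 * h (φ (γ t))) < r := by
        have : r' * t ≤ r' * 1 := mul_le_mul_of_nonneg_left ht1.le hr'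
        linarith
      have h5 : 2 * h (φ (γ t)) < r ^ 2 := by
        rwa [Real.sqrt_lt' hr] at h4
      -- openness
      have hnear : ∀ᶠ s in 𝓝 t, γ s ∈ φ.source ∧ φ (γ s) ∈ O ∧ 2 * h (φ (γ s)) < r ^ 2 := by
        have hc1 : ContinuousAt γ t := hγ.continuous.continuousAt
        have hc2 : ContinuousAt (fun s => φ (γ s)) t :=
          ContinuousAt.comp (g := φ) (φ.continuousAt h2) hc1
        have hc3 : ContinuousAt (fun s => 2 * h (φ (γ s))) t := by
          have : ContinuousAt h (φ (γ t)) := (hd _ (hKO h3)).1.continuousAt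
          exact continuousAt_const.mul (ContinuousAt.comp (g := h) (f := fun s => φ (γ s)) this hc2)
        filter_upwards [hc1.eventually_mem (φ.open_source.mem_nhds h2),
          hc2.eventually_mem (hO.mem_nhds (hKO h3)), hc3.eventually_lt_const h5] with s a1 a2 a3
        exact ⟨a1, a2, a3⟩
      have : γ ⁻¹' A ∈ 𝓝 t := by
        filter_upwards [hnear] with s hs'
        exact (hAmem _).2 ⟨hs'.1, hs'.2.1, hs'.2.2.le⟩
      exact mem_nhdsWithin_of_mem_nhds this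
  intro t ht
  obtain ⟨h1, h2⟩ := (hAmem _).1 (hsub ht)
  exact ⟨h1, hKO h2, hest t ht fun s hs' => hsub ⟨hs'.1, hs'.2.trans ht.2⟩⟩

/-- **Lower bound for the Riemannian distance.** -/
theorem lower {x0 : M} {G : E → E →L[ℝ] E →L[ℝ] ℝ} (hG : IsChartMetric x0 G)
    {O : Set E} (hO : IsOpen O) (hOU : O ⊆ (chartAt E x0).target) {a : E} (ha : a ∈ O)
    {h : E → ℝ} (h0 : h a = 0) (hnn : ∀ b ∈ O, 0 ≤ h b)
    (hd : ∀ b ∈ O, DifferentiableAt ℝ h b ∧ ∀ w, (fderiv ℝ h b w) ^ 2 ≤ 2 * h b * G b w w)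
    {r : ℝ} (hr : 0 < r) (hK : IsCompact {b ∈ O | 2 * h b ≤ r ^ 2})
    {y : M} {r' : ℝ} (hrr : r' < r)
    (hy : riemannianEDist 𝓘(ℝ, E) ((chartAt E x0).symm a) y < ENNReal.ofReal r') :
    y ∈ (chartAt E x0).source ∧ chartAt E x0 y ∈ O ∧
      Real.sqrt (2 * h (chartAt E x0 y)) ≤ r' := by
  have hr' : 0 < r' := by
    by_contra hcon
    push Not at hcon
    rw [ENNReal.ofReal_of_nonpos hcon] at hy
    exact absurd hy (by simp)
  obtain ⟨γ, hγ0, hγ1, hγ, hsp⟩ := exists_path_speed_le hy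
  have := energy_le_of_path hG hO hOU ha h0 hnn hd hr hK hγ hr'.le hrr hsp hγ0 1
    (right_mem_Icc.2 zero_le_one)
  rw [hγ1, mul_one] at this
  exact this

end

section metric

variable {E : Type*} [NormedAddCommGroup E] [NormedSpace ℝ E]
  {M : Type*} [MetricSpace M] [ChartedSpace E M]
  [RiemannianBundle (fun x : M => TangentSpace 𝓘(ℝ, E) x)]
  [IsManifold 𝓘(ℝ, E) 1 M]
  [IsContinuousRiemannianBundle E (fun x : M => TangentSpace 𝓘(ℝ, E) x)]
  [IsRiemannianManifold 𝓘(ℝ, E) M]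

/-- `dist` version of `lower`. -/
theorem lower_dist {x0 : M} {G : E → E →L[ℝ] E →L[ℝ] ℝ} (hG : IsChartMetric x0 G)
    {O : Set E} (hO : IsOpen O) (hOU : O ⊆ (chartAt E x0).target) {a : E} (ha : a ∈ O)
    {h : E → ℝ} (h0 : h a = 0) (hnn : ∀ b ∈ O, 0 ≤ h b)
    (hd : ∀ b ∈ O, DifferentiableAt ℝ h b ∧ ∀ w, (fderiv ℝ h b w) ^ 2 ≤ 2 * h b * G b w w)
    {ρ : ℝ} (hK : ∀ r, 0 < r → r < ρ → IsCompact {b ∈ O | 2 * h b ≤ r ^ 2})
    {y : M} (hy : dist ((chartAt E x0).symm a) y < ρ) :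
    y ∈ (chartAt E x0).source ∧ chartAt E x0 y ∈ O ∧
      Real.sqrt (2 * h (chartAt E x0 y)) ≤ dist ((chartAt E x0).symm a) y := by
  have hmain : ∀ r', dist ((chartAt E x0).symm a) y < r' → r' < ρ →
      y ∈ (chartAt E x0).source ∧ chartAt E x0 y ∈ O ∧
      Real.sqrt (2 * h (chartAt E x0 y)) ≤ r' := by
    intro r' h1 h2
    have h3 : 0 < r' := dist_nonneg.trans_lt h1
    obtain ⟨r, hr1, hr2⟩ := exists_between h2
    apply lower hG hO hOU ha h0 hnn hd (h3.trans hr1) (hK r (h3.trans hr1) hr2) hr1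
    rw [← IsRiemannianManifold.out (I := 𝓘(ℝ, E)), edist_dist]
    exact (ENNReal.ofReal_lt_ofReal_iff h3).2 h1
  obtain ⟨r', h1, h2⟩ := exists_between hy
  obtain ⟨a1, a2, -⟩ := hmain r' h1 h2
  refine ⟨a1, a2, ?_⟩
  apply le_of_forall_gt_imp_ge_of_dense
  intro r'' hr''
  obtain ⟨r', h1, h2⟩ := exists_between (lt_min hy hr'')
  exact (hmain r' h1 (h2.trans_le (min_le_left _ _))).2.2.trans (h2.trans_le (min_le_right _ _)).le

/-- **Upper bound**: a chart curve of `G`-speed at most `σ` on `[s,t]` moves by at most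
`σ * (t - s)`. -/
theorem dist_le_of_speed {x0 : M} {G : E → E →L[ℝ] E →L[ℝ] ℝ} (hG : IsChartMetric x0 G)
    {c : ℝ → E} {s t σ : ℝ} (hst : s ≤ t) (hσ : 0 ≤ σ) (hc : ContDiffOn ℝ 1 c (Icc s t))
    (hcU : ∀ u ∈ Icc s t, c u ∈ (chartAt E x0).target)
    (hsp : ∀ u ∈ Ioo s t, G (c u) (deriv c u) (deriv c u) ≤ σ ^ 2) :
    dist ((chartAt E x0).symm (c s)) ((chartAt E x0).symm (c t)) ≤ σ * (t - s) := by
  have h1 := (edist_le_of_speed_le (γ := (chartAt E x0).symm ∘ c)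
    (F := fun u => σ * u) (F' := fun _ => σ) hst
    (contMDiffOn_symm_comp hc hcU) (by fun_prop)
    (fun u _ => by simpa using (hasDerivAt_id u).const_mul σ)
    (continuous_const.intervalIntegrable _ _) ?_).2
  · rw [← IsRiemannianManifold.out (I := 𝓘(ℝ, E)), edist_dist] at h1
    have h2 : 0 ≤ σ * t - σ * s := by nlinarith
    have h3 := (ENNReal.ofReal_le_ofReal_iff h2).1 h1
    calc _ ≤ σ * t - σ * s := h3
      _ = σ * (t - s) := by ring
  · intro u hu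
    have hcd : DifferentiableAt ℝ c u :=
      ((hc u (Ioo_subset_Icc_self hu)).contDiffAt (Icc_mem_nhds hu.1 hu.2)).differentiableAt
        one_ne_zero
    rw [mfderiv_symm_comp (hcU u (Ioo_subset_Icc_self hu)) hcd]
    apply le_of_sq_le_sq _ hσ
    exact (hG (c u) (hcU u (Ioo_subset_Icc_self hu)) (deriv c u)).symm.le.trans (hsp u hu)

end metric

end Crest.Agent.R226.DistLoc549
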