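/-
R226 Layer A2a/A2b/A3 (helper577): local Riemannian geometry on an open set `U` of a
finite-dimensional normed space with Levi-Civita data `IsLC U g Γ`: local exponential map, its
uniform injectivity radius, the local energy `h`, Gauss lemma / first variation, local minimality.
-/
import Crest.Agent.R244.CF
import Crest.Agent.R244.Flow

set_option autoImplicit false
set_option maxSynthPendingDepth 3

open Set Filter Topology
open scoped ContDiff

namespace Crest.Agent.R226.GeoLoc577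

open Crest.Agent.R244 (spray contDiffOn_spray)
open Crest.Agent.R244.CF (IsLC)
open Crest.Agent.Lib

/-- Uniform local Riemannian geometry near `p0` in an open set `U` of a normed space.
All statements are for base points `a ∈ W` and vectors `v` with `g a v v < ρ ^ 2`. -/
structure LocGeo {E : Type*} [NormedAddCommGroup E] [NormedSpace ℝ E]
    (U : Set E) (g : E → E →L[ℝ] E →L[ℝ] ℝ) (Γ : E → E →L[ℝ] E →L[ℝ] E) (p0 : E) where
  /-- base domain -/
  W : Set E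
  /-- radius -/
  ρ : ℝ
  /-- the local exponential map `(a, v) ↦ exp_a v` -/
  Ex : E × E → E
  /-- `vel t (a, v)`: velocity at time `t` of the geodesic `t ↦ Ex (a, t • v)` -/
  vel : ℝ → E × E → E
  /-- the local energy `h (a, b) = d(a,b)^2/2` -/
  h : E × E → ℝ
  isOpen_W : IsOpen W
  mem_W : p0 ∈ W
  W_sub : W ⊆ U
  ρ_pos : 0 < ρ
  Ex_mem : ∀ a ∈ W, ∀ v, g a v v < ρ ^ 2 → Ex (a, v) ∈ U
  Ex_smooth : ∀ a ∈ W, ∀ v, g a v v < ρ ^ 2 → ContDiffAt ℝ ∞ Ex (a, v)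
  Ex_zero : ∀ a ∈ W, Ex (a, 0) = a
  Ex_inj : ∀ a ∈ W, ∀ v w, g a v v < ρ ^ 2 → g a w w < ρ ^ 2 → Ex (a, v) = Ex (a, w) → v = w
  vel_zero : ∀ a ∈ W, ∀ v, g a v v < ρ ^ 2 → vel 0 (a, v) = v
  vel_smooth : ∀ a ∈ W, ∀ v, g a v v < ρ ^ 2 → ∀ t : ℝ, |t| ≤ 1 →
    ContDiffAt ℝ ∞ (fun q : ℝ × (E × E) => vel q.1 q.2) (t, (a, v))
  hasDerivAt_Ex : ∀ a ∈ W, ∀ v, g a v v < ρ ^ 2 → ∀ t : ℝ, |t| ≤ 1 →
    HasDerivAt (fun t : ℝ => Ex (a, t • v)) (vel t (a, v)) t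
  hasDerivAt_vel : ∀ a ∈ W, ∀ v, g a v v < ρ ^ 2 → ∀ t : ℝ, |t| ≤ 1 →
    HasDerivAt (fun t : ℝ => vel t (a, v))
      (-(Γ (Ex (a, t • v)) (vel t (a, v)) (vel t (a, v)))) t
  speed : ∀ a ∈ W, ∀ v, g a v v < ρ ^ 2 → ∀ t : ℝ, |t| ≤ 1 →
    g (Ex (a, t • v)) (vel t (a, v)) (vel t (a, v)) = g a v v
  h_eq : ∀ a ∈ W, ∀ v, g a v v < ρ ^ 2 → h (a, Ex (a, v)) = g a v v / 2
  h_smooth : ∀ a ∈ W, ∀ v, g a v v < ρ ^ 2 → ContDiffAt ℝ ∞ h (a, Ex (a, v))
  /-- first variation (Gauss lemma) -/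
  h_fderiv : ∀ a ∈ W, ∀ v, g a v v < ρ ^ 2 → ∀ ξ η,
    fderiv ℝ h (a, Ex (a, v)) (ξ, η) = g (Ex (a, v)) (vel 1 (a, v)) η - g a v ξ
  /-- the image of an open subset of the disc bundle under `(a, v) ↦ (a, exp_a v)` is open -/
  isOpen_image : ∀ O : Set (E × E), IsOpen O → (∀ z ∈ O, z.1 ∈ W ∧ g z.1 z.2 z.2 < ρ ^ 2) →
    IsOpen ((fun z : E × E => (z.1, Ex z)) '' O)
  isOpen_ball : ∀ a ∈ W, ∀ r, 0 < r → r ≤ ρ →
    IsOpen ((fun v => Ex (a, v)) '' {v | g a v v < r ^ 2})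
  isCompact_closedBall : ∀ a ∈ W, ∀ r, 0 ≤ r → r < ρ →
    IsCompact ((fun v => Ex (a, v)) '' {v | g a v v ≤ r ^ 2})
  /-- inner domain, where two points of a short geodesic may be joined by restarting at one of
  them -/
  W' : Set E
  r' : ℝ
  isOpen_W' : IsOpen W'
  mem_W' : p0 ∈ W'
  W'_sub : W' ⊆ W
  r'_pos : 0 < r'
  r'_le : 2 * r' ≤ ρ
  Ex_mem_W : ∀ a ∈ W', ∀ v, g a v v < r' ^ 2 → Ex (a, v) ∈ W
  seg : ∀ a ∈ W', ∀ v, g a v v < r' ^ 2 → ∀ s t : ℝ, |s| ≤ 1 → |t| ≤ 1 →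
    Ex (Ex (a, s • v), (t - s) • vel s (a, v)) = Ex (a, t • v)


section FlowLemmas

variable {E : Type*} [NormedAddCommGroup E] [NormedSpace ℝ E] [CompleteSpace E]
variable {U : Set E} {Γ : E → E →L[ℝ] E →L[ℝ] E}

/-- the geodesic flow of `Γ` in `U` -/
noncomputable def F (U : Set E) (Γ : E → E →L[ℝ] E →L[ℝ] E) (q : (E × E) × ℝ) : E × E :=
  ODEFlow.flow (spray Γ) (U ×ˢ univ) q

/-- the domain of the geodesic flow -/
def D (U : Set E) (Γ : E → E →L[ℝ] E →L[ℝ] E) : Set ((E × E) × ℝ) :=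
  ODEFlow.dom (spray Γ) (U ×ˢ univ)

omit [CompleteSpace E] in
theorem spray_C1 (hΓ : ContDiffOn ℝ ∞ Γ U) : ContDiffOn ℝ 1 (spray Γ) (U ×ˢ univ) :=
  (contDiffOn_spray hΓ).of_le (by exact_mod_cast le_top)

theorem isOpen_D (hU : IsOpen U) (hΓ : ContDiffOn ℝ ∞ Γ U) : IsOpen (D U Γ) :=
  ODEFlow.isOpen_dom (hU.prod isOpen_univ) (spray_C1 hΓ)

theorem contDiffAt_F (hU : IsOpen U) (hΓ : ContDiffOn ℝ ∞ Γ U) {q : (E × E) × ℝ}
    (hq : q ∈ D U Γ) : ContDiffAt ℝ ∞ (F U Γ) q := by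
  have h := ODEFlow.contDiffOn_flow (n := ⊤) le_top (hU.prod isOpen_univ) (contDiffOn_spray hΓ)
  exact h.contDiffAt ((isOpen_D hU hΓ).mem_nhds hq)

theorem F_mem (hU : IsOpen U) (hΓ : ContDiffOn ℝ ∞ Γ U) {q : (E × E) × ℝ}
    (hq : q ∈ D U Γ) : (F U Γ q).1 ∈ U :=
  (ODEFlow.flow_mem (hU.prod isOpen_univ) (spray_C1 hΓ) hq).1

theorem F_zero (hU : IsOpen U) (hΓ : ContDiffOn ℝ ∞ Γ U) {z : E × E} (hz : z.1 ∈ U) :
    F U Γ (z, 0) = z :=
  ODEFlow.flow_zero (hU.prod isOpen_univ) (spray_C1 hΓ) (x := z) ⟨hz, trivial⟩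

theorem hasDerivAt_F (hU : IsOpen U) (hΓ : ContDiffOn ℝ ∞ Γ U) {z : E × E} {t : ℝ}
    (hq : (z, t) ∈ D U Γ) : HasDerivAt (fun s => F U Γ (z, s)) (spray Γ (F U Γ (z, t))) t :=
  ODEFlow.hasDerivAt_flow (hU.prod isOpen_univ) (spray_C1 hΓ) hq

theorem hasDerivAt_F1 (hU : IsOpen U) (hΓ : ContDiffOn ℝ ∞ Γ U) {z : E × E} {t : ℝ}
    (hq : (z, t) ∈ D U Γ) : HasDerivAt (fun s => (F U Γ (z, s)).1) (F U Γ (z, t)).2 t :=
  Crest.Agent.R244.hasDerivAt_fst' (hasDerivAt_F hU hΓ hq)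

theorem hasDerivAt_F2 (hU : IsOpen U) (hΓ : ContDiffOn ℝ ∞ Γ U) {z : E × E} {t : ℝ}
    (hq : (z, t) ∈ D U Γ) : HasDerivAt (fun s => (F U Γ (z, s)).2)
      (-(Γ (F U Γ (z, t)).1 (F U Γ (z, t)).2 (F U Γ (z, t)).2)) t :=
  Crest.Agent.R244.hasDerivAt_snd' (hasDerivAt_F hU hΓ hq)

theorem D_of_uIcc (_hU : IsOpen U) (_hΓ : ContDiffOn ℝ ∞ Γ U) {z : E × E} {s t : ℝ}
    (hq : (z, t) ∈ D U Γ) (hs : s ∈ uIcc 0 t) : (z, s) ∈ D U Γ :=
  ODEFlow.mem_dom_of_uIcc hq hs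

/-- homogeneity of the geodesic flow -/
theorem F_scale (hU : IsOpen U) (hΓ : ContDiffOn ℝ ∞ Γ U) {a v : E} {s t : ℝ}
    (hq : ((a, v), s * t) ∈ D U Γ) : ((a, s • v), t) ∈ D U Γ ∧
      F U Γ ((a, s • v), t) = ((F U Γ ((a, v), s * t)).1, s • (F U Γ ((a, v), s * t)).2) := by
  have hmem : ∀ u ∈ uIcc 0 t, ((a, v), s * u) ∈ D U Γ := by
    intro u hu
    refine D_of_uIcc hU hΓ hq ?_
    rcases le_total 0 t with h0 | h0
    · rw [uIcc_of_le h0] at hu
      rcases le_total 0 s with hs | hs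
      · rw [uIcc_of_le (mul_nonneg hs h0)]
        exact ⟨mul_nonneg hs hu.1, mul_le_mul_of_nonneg_left hu.2 hs⟩
      · rw [uIcc_of_ge (mul_nonpos_of_nonpos_of_nonneg hs h0)]
        exact ⟨mul_le_mul_of_nonpos_left hu.2 hs, mul_nonpos_of_nonpos_of_nonneg hs hu.1⟩
    · rw [uIcc_of_ge h0] at hu
      rcases le_total 0 s with hs | hs
      · rw [uIcc_of_ge (mul_nonpos_of_nonneg_of_nonpos hs h0)]
        exact ⟨mul_le_mul_of_nonneg_left hu.1 hs, mul_nonpos_of_nonneg_of_nonpos hs hu.2⟩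
      · rw [uIcc_of_le (mul_nonneg_of_nonpos_of_nonpos hs h0)]
        exact ⟨mul_nonneg_of_nonpos_of_nonpos hs hu.2, mul_le_mul_of_nonpos_left hu.1 hs⟩
  have ha : ((a, v) : E × E).1 ∈ U := (ODEFlow.mem_of_mem_dom hq).1
  have h0 : F U Γ ((a, v), s * 0) = (a, v) := by
    rw [mul_zero]; exact F_zero hU hΓ ha
  refine ODEFlow.flow_of_integralCurve' (hU.prod isOpen_univ) (spray_C1 hΓ)
    (c := fun u => ((F U Γ ((a, v), s * u)).1, s • (F U Γ ((a, v), s * u)).2)) ?_ ?_ ?_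
  · simp only [h0]
  · intro u hu
    exact ⟨F_mem hU hΓ (hmem u hu), trivial⟩
  · intro u hu
    have hm : HasDerivAt (fun u : ℝ => s * u) s u := by
      simpa using (hasDerivAt_id u).const_mul s
    have h1 := (hasDerivAt_F1 hU hΓ (hmem u hu)).scomp u hm
    have h2 := ((hasDerivAt_F2 hU hΓ (hmem u hu)).scomp u hm).const_smul s
    have h3 := h1.prodMk h2
    have e : spray Γ ((F U Γ ((a, v), s * u)).1, s • (F U Γ ((a, v), s * u)).2) =
        (s • (F U Γ ((a, v), s * u)).2, s • s • -((Γ (F U Γ ((a, v), s * u)).1)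
          (F U Γ ((a, v), s * u)).2) (F U Γ ((a, v), s * u)).2) := by
      simp [spray]
    rw [e]
    exact h3

/-- restarting the flow -/
theorem F_restart (hU : IsOpen U) (hΓ : ContDiffOn ℝ ∞ Γ U) {z : E × E} {s t : ℝ}
    (hs : (z, s) ∈ D U Γ) (ht : (z, t) ∈ D U Γ) :
    (F U Γ (z, s), t - s) ∈ D U Γ ∧ F U Γ (F U Γ (z, s), t - s) = F U Γ (z, t) := by
  have hmem : ∀ u ∈ uIcc 0 (t - s), (z, s + u) ∈ D U Γ := by
    intro u hu
    have hu' : s + u ∈ uIcc s t := by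
      rw [mem_uIcc] at hu ⊢
      rcases hu with hu | hu
      · left; constructor <;> linarith
      · right; constructor <;> linarith
    by_cases hc : s + u ∈ uIcc 0 s
    · exact D_of_uIcc hU hΓ hs hc
    · refine D_of_uIcc hU hΓ ht ?_
      rw [mem_uIcc] at hu' hc ⊢
      push Not at hc
      rcases hu' with h | h
      · left
        refine ⟨?_, h.2⟩
        by_contra hneg
        push Not at hneg
        linarith [hc.2 (by linarith)]
      · right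
        refine ⟨h.1, ?_⟩
        by_contra hneg
        push Not at hneg
        linarith [hc.1 hneg.le]
  have h := ODEFlow.flow_of_integralCurve' (hU.prod isOpen_univ) (spray_C1 hΓ)
    (c := fun u => F U Γ (z, s + u)) (x := F U Γ (z, s)) (l := t - s) (by simp)
    (fun u hu => ⟨F_mem hU hΓ (hmem u hu), trivial⟩)
    (fun u hu => by
      have := (hasDerivAt_F hU hΓ (hmem u hu)).scomp u ((hasDerivAt_id u).const_add s)
      simpa [Function.comp_def] using this)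
  refine ⟨h.1, ?_⟩
  have h2 := h.2
  simp only [add_sub_cancel] at h2
  exact h2

/-- rest points -/
theorem D_rest (hU : IsOpen U) (hΓ : ContDiffOn ℝ ∞ Γ U) {a : E} (ha : a ∈ U) (t : ℝ) :
    ((a, (0 : E)), t) ∈ D U Γ ∧ F U Γ ((a, 0), t) = (a, 0) :=
  ODEFlow.flow_of_zero (hU.prod isOpen_univ) (spray_C1 hΓ) (x := (a, 0)) ⟨ha, trivial⟩
    (by simp [spray]) t

/-- the exponential map -/
noncomputable def Ex (U : Set E) (Γ : E → E →L[ℝ] E →L[ℝ] E) (z : E × E) : E := (F U Γ (z, 1)).1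

theorem Ex_smul (hU : IsOpen U) (hΓ : ContDiffOn ℝ ∞ Γ U) {a v : E} {t : ℝ}
    (hq : ((a, v), t) ∈ D U Γ) : Ex U Γ (a, t • v) = (F U Γ ((a, v), t)).1 := by
  have h := (F_scale hU hΓ (s := t) (t := 1) (by simpa using hq)).2
  rw [Ex, h]
  simp

theorem Ex_zero (hU : IsOpen U) (hΓ : ContDiffOn ℝ ∞ Γ U) {a : E} (ha : a ∈ U) :
    Ex U Γ (a, 0) = a := by
  rw [Ex, (D_rest hU hΓ ha 1).2]

theorem contDiffAt_Ex (hU : IsOpen U) (hΓ : ContDiffOn ℝ ∞ Γ U) {z : E × E}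
    (hq : (z, (1 : ℝ)) ∈ D U Γ) : ContDiffAt ℝ ∞ (Ex U Γ) z := by
  have h1 : ContDiffAt ℝ ∞ (fun z : E × E => F U Γ (z, 1)) z :=
    (contDiffAt_F hU hΓ hq).comp z (contDiffAt_id.prodMk contDiffAt_const)
  exact contDiffAt_fst.comp z h1

/-- times for which `F (z, ·)` is defined are an open set -/
theorem eventually_D (hU : IsOpen U) (hΓ : ContDiffOn ℝ ∞ Γ U) {z : E × E} {t : ℝ}
    (hq : (z, t) ∈ D U Γ) : ∀ᶠ s in 𝓝 t, (z, s) ∈ D U Γ := by
  have hcont : Continuous (fun s : ℝ => ((z, s) : (E × E) × ℝ)) := by fun_prop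
  exact hcont.continuousAt.eventually ((isOpen_D hU hΓ).mem_nhds hq)

theorem hasDerivAt_Ex (hU : IsOpen U) (hΓ : ContDiffOn ℝ ∞ Γ U) {a v : E} {t : ℝ}
    (hq : ((a, v), t) ∈ D U Γ) :
    HasDerivAt (fun t : ℝ => Ex U Γ (a, t • v)) (F U Γ ((a, v), t)).2 t := by
  refine (hasDerivAt_F1 hU hΓ hq).congr_of_eventuallyEq ?_
  filter_upwards [eventually_D hU hΓ hq] with s hs using Ex_smul hU hΓ hs

end FlowLemmas


section Gauss

theorem eq_of_deriv_const {f : ℝ → ℝ} {t κ : ℝ} (hf : ∀ s ∈ uIcc 0 t, HasDerivAt f κ s) :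
    f t = f 0 + t * κ := by
  have h1 : ∀ s ∈ uIcc 0 t, HasDerivWithinAt (fun s => f s - s * κ) 0 (uIcc 0 t) s := by
    intro s hs
    have h2 : HasDerivAt (fun s : ℝ => s * κ) κ s := by
      simpa using (hasDerivAt_id s).mul_const κ
    simpa using ((hf s hs).fun_sub h2).hasDerivWithinAt (s := uIcc 0 t)
  have h3 := Convex.norm_image_sub_le_of_norm_hasDerivWithin_le (C := 0) h1
    (fun s _ => by simp) (convex_uIcc 0 t) left_mem_uIcc right_mem_uIcc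
  simp only [zero_mul, norm_le_zero_iff] at h3
  linarith

variable {E : Type*} [NormedAddCommGroup E] [NormedSpace ℝ E] [CompleteSpace E]
variable {U : Set E} {g : E → E →L[ℝ] E →L[ℝ] ℝ} {Γ : E → E →L[ℝ] E →L[ℝ] E}

omit [CompleteSpace E] in
theorem contDiffAt_energy (hLC : IsLC U g Γ) {z : E × E} (hz : z.1 ∈ U) :
    ContDiffAt ℝ ∞ (fun y : E × E => g y.1 y.2 y.2) z := by
  have h1 : ContDiffAt ℝ ∞ (fun y : E × E => g y.1) z :=
    (hLC.g_contDiffAt hz).comp z contDiffAt_fst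
  exact (h1.clm_apply contDiffAt_snd).clm_apply contDiffAt_snd

omit [CompleteSpace E] in
theorem fderiv_energy (hLC : IsLC U g Γ) {z : E × E} (hz : z.1 ∈ U) (ζ : E × E) :
    fderiv ℝ (fun y : E × E => g y.1 y.2 y.2) z ζ = 2 * g z.1 z.2 (Γ z.1 z.2 ζ.1 + ζ.2) := by
  have h0 : HasFDerivAt (fun y : E × E => y.1) (ContinuousLinearMap.fst ℝ E E) z :=
    hasFDerivAt_fst
  have h1 : HasFDerivAt (fun y : E × E => g y.1)
      ((fderiv ℝ g z.1).comp (ContinuousLinearMap.fst ℝ E E)) z :=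
    (hLC.g_differentiableAt hz).hasFDerivAt.comp z h0
  rw [Crest.Agent.R244.CF.hasFDerivAt_apply2 h1 (hasFDerivAt_snd (p := z))
    (hasFDerivAt_snd (p := z)) ζ]
  simp only [ContinuousLinearMap.coe_comp, Function.comp_apply, ContinuousLinearMap.coe_fst',
    ContinuousLinearMap.coe_snd']
  rw [hLC.compat _ hz, hLC.Γ_symm _ hz ζ.1 z.2, hLC.g_symm _ hz (Γ z.1 z.2 ζ.1) z.2,
    hLC.g_symm _ hz ζ.2 z.2, map_add]
  ring

theorem speed_const (hLC : IsLC U g Γ) {z : E × E} {t : ℝ} (hq : (z, t) ∈ D U Γ) :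
    g (F U Γ (z, t)).1 (F U Γ (z, t)).2 (F U Γ (z, t)).2 = g z.1 z.2 z.2 := by
  have hU := hLC.isOpen
  have hΓ := hLC.Γ_smooth
  have hz : z.1 ∈ U := (ODEFlow.mem_of_mem_dom hq).1
  have hd : ∀ s ∈ uIcc 0 t,
      HasDerivAt (fun s => g (F U Γ (z, s)).1 (F U Γ (z, s)).2 (F U Γ (z, s)).2) 0 s := by
    intro s hs
    have hs' := D_of_uIcc hU hΓ hq hs
    have hx := F_mem hU hΓ hs'
    have := Crest.Agent.R244.hasDerivAt_metric (hLC.g_differentiableAt hx)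
      (hasDerivAt_F1 hU hΓ hs') (hasDerivAt_F2 hU hΓ hs') (hasDerivAt_F2 hU hΓ hs')
    rw [hLC.compat _ hx] at this
    convert this using 1
    simp only [map_neg, neg_apply]
    ring
  have := eq_of_deriv_const hd
  simp only [mul_zero, add_zero] at this
  rw [this, F_zero hU hΓ hz]

/-- the linearised flow -/
noncomputable def J (U : Set E) (Γ : E → E →L[ℝ] E →L[ℝ] E) (z ζ : E × E) (s : ℝ) : E × E :=
  fderiv ℝ (F U Γ) (z, s) (ζ, 0)

theorem J_eq (hLC : IsLC U g Γ) {z : E × E} {t : ℝ} (hq : (z, t) ∈ D U Γ) :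
    HasFDerivAt (fun y => F U Γ (y, t))
      ((fderiv ℝ (F U Γ) (z, t)).comp (ContinuousLinearMap.inl ℝ (E × E) ℝ)) z := by
  have hd : DifferentiableAt ℝ (F U Γ) (z, t) :=
    (contDiffAt_F hLC.isOpen hLC.Γ_smooth hq).differentiableAt (by simp)
  have h1 : HasFDerivAt (fun y : E × E => ((y, t) : (E × E) × ℝ))
      (ContinuousLinearMap.inl ℝ (E × E) ℝ) z := hasFDerivAt_prodMk_left z t
  exact HasFDerivAt.comp z (f := fun y : E × E => ((y, t) : (E × E) × ℝ)) (g := F U Γ)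
    hd.hasFDerivAt h1

/-- energy conservation, differentiated -/
theorem energy_J (hLC : IsLC U g Γ) {z : E × E} {t : ℝ} (hq : (z, t) ∈ D U Γ) (ζ : E × E) :
    2 * g (F U Γ (z, t)).1 (F U Γ (z, t)).2
      (Γ (F U Γ (z, t)).1 (F U Γ (z, t)).2 (J U Γ z ζ t).1 + (J U Γ z ζ t).2) =
    fderiv ℝ (fun y : E × E => g y.1 y.2 y.2) z ζ := by
  have hU := hLC.isOpen
  have hΓ := hLC.Γ_smooth
  have hx := F_mem hU hΓ hq
  have h1 : (fun y : E × E => g y.1 y.2 y.2) =ᶠ[𝓝 z]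
      (fun y : E × E => g y.1 y.2 y.2) ∘ fun y => F U Γ (y, t) := by
    have hcont : Continuous (fun y : E × E => ((y, t) : (E × E) × ℝ)) := by fun_prop
    filter_upwards [hcont.continuousAt.eventually ((isOpen_D hU hΓ).mem_nhds hq)] with y hy
    exact (speed_const hLC hy).symm
  have h2 := J_eq hLC hq
  have h3 : DifferentiableAt ℝ (fun y : E × E => g y.1 y.2 y.2) (F U Γ (z, t)) :=
    (contDiffAt_energy hLC hx).differentiableAt (by simp)
  rw [h1.fderiv_eq, (h3.hasFDerivAt.comp z h2).fderiv]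
  simp only [ContinuousLinearMap.coe_comp, Function.comp_apply, ContinuousLinearMap.inl_apply]
  rw [fderiv_energy hLC hx]
  rfl

theorem hasDerivAt_J (hLC : IsLC U g Γ) {z : E × E} {t : ℝ} (hq : (z, t) ∈ D U Γ)
    (ζ : E × E) : HasDerivAt (fun s => (J U Γ z ζ s).1) (J U Γ z ζ t).2 t := by
  have hU := hLC.isOpen
  have hΓ := hLC.Γ_smooth
  have hC2 : ContDiffOn ℝ 2 (spray Γ) (U ×ˢ univ) :=
    (contDiffOn_spray hΓ).of_le Crest.Agent.R244.CF.two_le_infty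
  have h1 := ODEFlow.hasDerivAt_fderiv_flow (hU.prod isOpen_univ) hC2 hq ζ
  have hx := F_mem hU hΓ hq
  have h2 := Crest.Agent.R244.fderiv_spray (z := F U Γ (z, t)) (hLC.Γ_differentiableAt hx)
    (J U Γ z ζ t)
  have h3 : HasDerivAt (fun s => J U Γ z ζ s)
      (Crest.Agent.R244.sprayD Γ (F U Γ (z, t)) (J U Γ z ζ t)) t := by
    rw [← h2]; exact h1
  exact Crest.Agent.R244.hasDerivAt_fst' h3

/-- **first variation of energy / Gauss lemma** -/
theorem gauss (hLC : IsLC U g Γ) {z : E × E} (hq : (z, (1 : ℝ)) ∈ D U Γ) (ζ : E × E) :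
    fderiv ℝ (fun y : E × E => g y.1 y.2 y.2) z ζ =
      2 * (g (Ex U Γ z) (F U Γ (z, 1)).2 (fderiv ℝ (Ex U Γ) z ζ) - g z.1 z.2 ζ.1) := by
  have hU := hLC.isOpen
  have hΓ := hLC.Γ_smooth
  have hz : z.1 ∈ U := (ODEFlow.mem_of_mem_dom hq).1
  set κ := fderiv ℝ (fun y : E × E => g y.1 y.2 y.2) z ζ / 2 with hκ
  have hd : ∀ s ∈ uIcc (0 : ℝ) 1,
      HasDerivAt (fun s => g (F U Γ (z, s)).1 (F U Γ (z, s)).2 (J U Γ z ζ s).1) κ s := by
    intro s hs
    have hs' := D_of_uIcc hU hΓ hq hs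
    have hx := F_mem hU hΓ hs'
    have := Crest.Agent.R244.hasDerivAt_metric (hLC.g_differentiableAt hx)
      (hasDerivAt_F1 hU hΓ hs') (hasDerivAt_F2 hU hΓ hs') (hasDerivAt_J hLC hs' ζ)
    rw [hLC.compat _ hx] at this
    convert this using 1
    have h4 := energy_J hLC hs' ζ
    rw [hκ, ← h4]
    simp only [map_neg, neg_apply, map_add]
    ring
  have h5 := eq_of_deriv_const hd
  have h6 : (J U Γ z ζ 1).1 = fderiv ℝ (Ex U Γ) z ζ := by
    have h7 := (ContinuousLinearMap.fst ℝ E E).hasFDerivAt.comp z (J_eq hLC hq)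
    have h8 : fderiv ℝ (Ex U Γ) z = (ContinuousLinearMap.fst ℝ E E).comp
        ((fderiv ℝ (F U Γ) (z, 1)).comp (ContinuousLinearMap.inl ℝ (E × E) ℝ)) := h7.fderiv
    rw [h8]
    rfl
  have h9 : (J U Γ z ζ 0).1 = ζ.1 := by
    have := ODEFlow.fderiv_flow_zero (hU.prod isOpen_univ) (spray_C1 hΓ) (x := z) ⟨hz, trivial⟩ ζ
    exact congrArg Prod.fst this
  rw [h6, h9, F_zero hU hΓ hz] at h5
  have h10 : fderiv ℝ (fun y : E × E => g y.1 y.2 y.2) z ζ = 2 * κ := by rw [hκ]; ring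
  rw [h10]
  have h11 : g (Ex U Γ z) (F U Γ (z, 1)).2 (fderiv ℝ (Ex U Γ) z ζ) = g z.1 z.2 ζ.1 + 1 * κ := h5
  rw [h11]
  ring

end Gauss


section Main

variable {E : Type*} [NormedAddCommGroup E] [NormedSpace ℝ E] [FiniteDimensional ℝ E]
variable {U : Set E} {g : E → E →L[ℝ] E →L[ℝ] ℝ} {Γ : E → E →L[ℝ] E →L[ℝ] E}

/-- uniform ellipticity of the metric near a point -/
theorem exists_elliptic (hLC : IsLC U g Γ) {p0 : E} (hp : p0 ∈ U) :
    ∃ c > 0, ∃ W : Set E, IsOpen W ∧ p0 ∈ W ∧ W ⊆ U ∧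
      ∀ a ∈ W, ∀ v, c ^ 2 * ‖v‖ ^ 2 ≤ g a v v := by
  have : ProperSpace E := FiniteDimensional.proper_real E
  have hcont : ContinuousOn (fun v : E => g p0 v v) (Metric.sphere (0 : E) 1) := by fun_prop
  obtain ⟨m, hm0, hm⟩ := (isCompact_sphere (0 : E) 1).exists_forall_le' hcont (a := 0)
    (fun v hv => hLC.g_pos p0 hp v (by
      intro h0
      rw [h0] at hv
      simp at hv))
  have hm' : ∀ v, m * ‖v‖ ^ 2 ≤ g p0 v v := by
    intro v
    by_cases hv : v = 0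
    · simp [hv]
    · have hn : 0 < ‖v‖ := norm_pos_iff.2 hv
      have h1 := hm (‖v‖⁻¹ • v) (by simp [norm_smul, hn.ne'])
      simp only [map_smul, smul_apply, smul_eq_mul] at h1
      have h2 : g p0 v v = ‖v‖ ^ 2 * (‖v‖⁻¹ * (‖v‖⁻¹ * g p0 v v)) := by
        field_simp
      rw [h2, mul_comm]
      exact mul_le_mul_of_nonneg_left h1 (by positivity)
  have hopen : IsOpen (U ∩ g ⁻¹' Metric.ball (g p0) (m / 2)) :=
    hLC.g_smooth.continuousOn.isOpen_inter_preimage hLC.isOpen Metric.isOpen_ball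
  refine ⟨√(m / 2), Real.sqrt_pos.2 (by linarith), U ∩ g ⁻¹' Metric.ball (g p0) (m / 2), hopen,
    ⟨hp, Metric.mem_ball_self (by linarith)⟩, inter_subset_left, ?_⟩
  rintro a ⟨haU, ha⟩ v
  rw [mem_preimage, mem_ball_iff_norm] at ha
  have h3 : |(g a - g p0) v v| ≤ m / 2 * ‖v‖ ^ 2 := by
    calc |(g a - g p0) v v| ≤ ‖(g a - g p0) v‖ * ‖v‖ := ((g a - g p0) v).le_opNorm v
      _ ≤ ‖g a - g p0‖ * ‖v‖ * ‖v‖ :=
        mul_le_mul_of_nonneg_right ((g a - g p0).le_opNorm v) (norm_nonneg _)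
      _ = ‖g a - g p0‖ * ‖v‖ ^ 2 := by ring
      _ ≤ m / 2 * ‖v‖ ^ 2 := mul_le_mul_of_nonneg_right ha.le (by positivity)
  have h4 : g a v v = g p0 v v + (g a - g p0) v v := by
    simp only [sub_apply]
    ring
  rw [Real.sq_sqrt (by linarith), h4]
  have := hm' v
  have := (abs_le.1 h3).1
  linarith

omit [NormedSpace ℝ E] [FiniteDimensional ℝ E] in
theorem exists_tube {P : E × E → Prop} {p0 : E} (h : ∀ᶠ z in 𝓝 (p0, (0 : E)), P z) :
    ∃ W : Set E, IsOpen W ∧ p0 ∈ W ∧ ∃ δ > 0, ∀ a ∈ W, ∀ v : E, ‖v‖ < δ → P (a, v) := by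
  rw [nhds_prod_eq, Filter.eventually_prod_iff] at h
  obtain ⟨pa, ha, pb, hb, hab⟩ := h
  obtain ⟨W, hWsub, hWo, hpW⟩ := mem_nhds_iff.1 ha
  obtain ⟨δ, hδ, hδb⟩ := Metric.eventually_nhds_iff.1 hb
  exact ⟨W, hWo, hpW, δ, hδ, fun a haW v hv => hab (hWsub haW) (hδb (by simpa using hv))⟩

theorem hasFDerivAt_endpt (hLC : IsLC U g Γ) {p0 : E} (hp : p0 ∈ U) :
    HasFDerivAt (fun z : E × E => (z.1, Ex U Γ z))
      (Crest.Agent.R244.shear E : (E × E) →L[ℝ] (E × E)) (p0, 0) := by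
  have : CompleteSpace E := FiniteDimensional.complete ℝ E
  have hU := hLC.isOpen
  have hΓ := hLC.Γ_smooth
  have hd : DifferentiableAt ℝ (Ex U Γ) (p0, (0 : E)) :=
    (contDiffAt_Ex hU hΓ (D_rest hU hΓ hp 1).1).differentiableAt (by simp)
  have h1 : HasFDerivAt (fun z : E × E => (z.1, Ex U Γ z))
      ((ContinuousLinearMap.fst ℝ E E).prod (fderiv ℝ (Ex U Γ) (p0, 0))) (p0, 0) :=
    hasFDerivAt_fst.prodMk hd.hasFDerivAt
  have hξ : ∀ ξ : E, fderiv ℝ (Ex U Γ) (p0, 0) (ξ, 0) = ξ := by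
    intro ξ
    have h2 : HasFDerivAt (fun a : E => Ex U Γ (a, 0))
        ((fderiv ℝ (Ex U Γ) (p0, 0)).comp (ContinuousLinearMap.inl ℝ E E)) p0 :=
      HasFDerivAt.comp p0 (f := fun a : E => ((a, (0 : E)) : E × E)) (g := Ex U Γ)
        hd.hasFDerivAt (hasFDerivAt_prodMk_left p0 (0 : E))
    have h3 : (fun a : E => Ex U Γ (a, 0)) =ᶠ[𝓝 p0] fun a => a := by
      filter_upwards [hU.mem_nhds hp] with a ha using Ex_zero hU hΓ ha
    have h4 := (h2.congr_of_eventuallyEq h3.symm).unique (hasFDerivAt_id p0)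
    exact congrArg (fun L : E →L[ℝ] E => L ξ) h4
  have hη : ∀ η : E, fderiv ℝ (Ex U Γ) (p0, 0) (0, η) = η := by
    intro η
    have hq : ((p0, η), (0 : ℝ)) ∈ D U Γ := by
      have := ODEFlow.mem_dom_zero (v := spray Γ) (U := U ×ˢ (univ : Set E)) (x := (p0, η))
        ⟨hp, trivial⟩
      exact this
    have h2 := hasDerivAt_Ex hU hΓ hq
    rw [F_zero hU hΓ (z := (p0, η)) hp] at h2
    have h3 : HasDerivAt (fun t : ℝ => ((p0, t • η) : E × E)) ((0 : E), η) 0 := by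
      simpa using (hasDerivAt_const (0 : ℝ) p0).prodMk ((hasDerivAt_id (0 : ℝ)).smul_const η)
    have hd' : HasFDerivAt (Ex U Γ) (fderiv ℝ (Ex U Γ) (p0, 0)) (p0, (0 : ℝ) • η) := by
      simpa using hd.hasFDerivAt
    have h4 : HasDerivAt (fun t : ℝ => Ex U Γ (p0, t • η))
        (fderiv ℝ (Ex U Γ) (p0, 0) (0, η)) 0 :=
      HasFDerivAt.comp_hasDerivAt (l := Ex U Γ) (f := fun t : ℝ => ((p0, t • η) : E × E)) 0 hd' h3
    exact h4.unique h2
  convert h1 using 1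
  ext ζ
  · simp [Crest.Agent.R244.shear]
  · simp [Crest.Agent.R244.shear, hξ]
  · simp [Crest.Agent.R244.shear]
  · simp [Crest.Agent.R244.shear, hη]

theorem exists_locGeo (hLC : IsLC U g Γ) {p0 : E} (hp : p0 ∈ U) :
    Nonempty (LocGeo U g Γ p0) := by
  have : CompleteSpace E := FiniteDimensional.complete ℝ E
  have : ProperSpace E := FiniteDimensional.proper_real E
  have hU := hLC.isOpen
  have hΓ := hLC.Γ_smooth
  obtain ⟨c, hc, We, hWeo, hpWe, hWeU, hell⟩ := exists_elliptic hLC hp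
  set Φ : E × E → E × E := fun z => (z.1, Ex U Γ z) with hΦ
  have hrest1 := (D_rest hU hΓ hp 1).1
  have hΦs : ∀ z : E × E, (z, (1 : ℝ)) ∈ D U Γ → ContDiffAt ℝ ∞ Φ z := fun z hz =>
    contDiffAt_fst.prodMk (contDiffAt_Ex hU hΓ hz)
  have hcd : ContDiffAt ℝ ∞ Φ (p0, 0) := hΦs _ hrest1
  have hd : HasFDerivAt Φ (Crest.Agent.R244.shear E : (E × E) →L[ℝ] (E × E)) (p0, 0) :=
    hasFDerivAt_endpt hLC hp
  set Θ := hcd.toOpenPartialHomeomorph Φ hd (by simp) with hΘ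
  have hΘc : ∀ z, Θ z = Φ z := fun z => rfl
  -- the good set
  have e1 : ∀ᶠ z in 𝓝 (p0, (0 : E)), (z, (1 : ℝ)) ∈ D U Γ := by
    have hcont : Continuous (fun z : E × E => ((z, (1 : ℝ)) : (E × E) × ℝ)) := by fun_prop
    exact hcont.continuousAt.eventually ((isOpen_D hU hΓ).mem_nhds hrest1)
  have e2 : ∀ᶠ z in 𝓝 (p0, (0 : E)), (z, (-1 : ℝ)) ∈ D U Γ := by
    have hcont : Continuous (fun z : E × E => ((z, (-1 : ℝ)) : (E × E) × ℝ)) := by fun_prop
    exact hcont.continuousAt.eventually ((isOpen_D hU hΓ).mem_nhds (D_rest hU hΓ hp (-1)).1)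
  have e3 : ∀ᶠ z in 𝓝 (p0, (0 : E)), z ∈ Θ.source :=
    Θ.open_source.mem_nhds (hcd.mem_toOpenPartialHomeomorph_source hd (by simp))
  have e4 : ∀ᶠ z in 𝓝 (p0, (0 : E)),
      fderiv ℝ Φ z ∈ range ((↑) : ((E × E) ≃L[ℝ] (E × E)) → ((E × E) →L[ℝ] (E × E))) := by
    have h1 : ContinuousAt (fderiv ℝ Φ) (p0, (0 : E)) :=
      (hcd.fderiv_right (m := 0) (by simp)).continuousAt
    have h2 := (Crest.Agent.R244.shear E).nhds
    rw [← hd.fderiv] at h2
    exact h1.eventually h2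
  obtain ⟨W0, hW0o, hpW0, δ, hδ, hgood⟩ := exists_tube (e1.and (e2.and (e3.and e4)))
  have hρ : 0 < c * δ := mul_pos hc hδ
  have hWU : W0 ∩ We ⊆ U := inter_subset_right.trans hWeU
  have hsmall : ∀ a ∈ W0 ∩ We, ∀ (v : E) (r : ℝ), 0 < r → g a v v < (c * r) ^ 2 → ‖v‖ < r := by
    intro a ha v r hr hv
    have h1 := hell a ha.2 v
    have h2 : c ^ 2 * ‖v‖ ^ 2 < c ^ 2 * r ^ 2 := by
      calc _ ≤ _ := h1
        _ < _ := hv
        _ = _ := by ring
    have h3 : ‖v‖ ^ 2 < r ^ 2 := lt_of_mul_lt_mul_left h2 (by positivity)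
    exact lt_of_pow_lt_pow_left₀ 2 hr.le h3
  have hg : ∀ a ∈ W0 ∩ We, ∀ v, g a v v < (c * δ) ^ 2 →
      ((a, v), (1 : ℝ)) ∈ D U Γ ∧ ((a, v), (-1 : ℝ)) ∈ D U Γ ∧ (a, v) ∈ Θ.source ∧
      fderiv ℝ Φ (a, v) ∈ range ((↑) : ((E × E) ≃L[ℝ] (E × E)) → ((E × E) →L[ℝ] (E × E))) :=
    fun a ha v hv => hgood a ha.1 v (hsmall a ha v δ hδ hv)
  have hgt : ∀ a ∈ W0 ∩ We, ∀ v, g a v v < (c * δ) ^ 2 → ∀ t : ℝ, |t| ≤ 1 →
      ((a, v), t) ∈ D U Γ := by
    intro a ha v hv t ht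
    rw [abs_le] at ht
    obtain ⟨h1, h2, -⟩ := hg a ha v hv
    rcases le_total 0 t with h0 | h0
    · exact D_of_uIcc hU hΓ h1 (by rw [uIcc_of_le zero_le_one]; exact ⟨h0, ht.2⟩)
    · exact D_of_uIcc hU hΓ h2 (by rw [uIcc_of_ge (by norm_num)]; exact ⟨ht.1, h0⟩)
  -- the inner domain
  have e5 : ∀ᶠ z in 𝓝 (p0, (0 : E)), Ex U Γ z ∈ W0 ∩ We := by
    have h1 : ContinuousAt (Ex U Γ) (p0, (0 : E)) := (contDiffAt_Ex hU hΓ hrest1).continuousAt
    have h2 : W0 ∩ We ∈ 𝓝 (Ex U Γ (p0, (0 : E))) := by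
      rw [Ex_zero hU hΓ hp]
      exact (hW0o.inter hWeo).mem_nhds ⟨hpW0, hpWe⟩
    exact h1.eventually h2
  obtain ⟨W1, hW1o, hpW1, δ', hδ', hin⟩ := exists_tube e5
  have hr' : 0 < min (c * δ') (c * δ / 2) := lt_min (mul_pos hc hδ') (by linarith)
  have hsq : ∀ x : ℝ, x < (min (c * δ') (c * δ / 2)) ^ 2 → x < (c * δ) ^ 2 ∧ x < (c * δ') ^ 2 := by
    intro x hx
    constructor
    · refine hx.trans_le (pow_le_pow_left₀ hr'.le ((min_le_right _ _).trans ?_) 2)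
      linarith
    · exact hx.trans_le (pow_le_pow_left₀ hr'.le (min_le_left _ _) 2)
  have hopenO : ∀ r : ℝ, IsOpen {z : E × E | z.1 ∈ W0 ∩ We ∧ g z.1 z.2 z.2 < r ^ 2} := by
    intro r
    have h1 : ContinuousOn (fun z : E × E => g z.1 z.2 z.2) ((W0 ∩ We) ×ˢ univ) := fun z hz =>
      (contDiffAt_energy hLC (hWU hz.1)).continuousAt.continuousWithinAt
    have h2 := h1.isOpen_inter_preimage ((hW0o.inter hWeo).prod isOpen_univ)
      (isOpen_Iio (a := r ^ 2))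
    convert h2 using 1
    ext z
    simp
  have himg : ∀ O : Set (E × E), IsOpen O → (∀ z ∈ O, z.1 ∈ W0 ∩ We ∧ g z.1 z.2 z.2 < (c * δ) ^ 2) →
      IsOpen (Φ '' O) := fun O hO hsub =>
    Θ.isOpen_image_of_subset_source hO fun z hz => (hg z.1 (hsub z hz).1 z.2 (hsub z hz).2).2.2.1
  have hsm : ∀ a ∈ W0 ∩ We, ∀ v, g a v v < (c * δ) ^ 2 → ContDiffAt ℝ ∞
      (fun p => g (Θ.symm p).1 (Θ.symm p).2 (Θ.symm p).2 / 2) (Φ (a, v)) := by
    intro a ha v hv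
    obtain ⟨h1, -, h2, ⟨A, hA⟩⟩ := hg a ha v hv
    have h3 : Θ.symm (Φ (a, v)) = (a, v) := by
      have := Θ.left_inv h2
      rwa [hΘc] at this
    have h4 : ContDiffAt ℝ ∞ Θ.symm (Φ (a, v)) := by
      apply Θ.contDiffAt_symm (f₀' := A)
      · rw [← hΘc]; exact Θ.map_source h2
      · rw [h3, hA]
        exact ((hΦs _ h1).differentiableAt (by simp)).hasFDerivAt
      · rw [h3]; exact hΦs _ h1
    have h5 : ContDiffAt ℝ ∞ (fun y : E × E => g y.1 y.2 y.2) (Θ.symm (Φ (a, v))) := by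
      rw [h3]
      exact contDiffAt_energy hLC (hWU ha)
    exact (h5.comp (Φ (a, v)) h4).div_const 2
  refine ⟨{ W := W0 ∩ We, ρ := c * δ, Ex := Ex U Γ, vel := fun t z => (F U Γ (z, t)).2,
            h := fun p => g (Θ.symm p).1 (Θ.symm p).2 (Θ.symm p).2 / 2,
            isOpen_W := hW0o.inter hWeo, mem_W := ⟨hpW0, hpWe⟩, W_sub := hWU, ρ_pos := hρ,
            Ex_mem := fun a ha v hv => F_mem hU hΓ (hg a ha v hv).1
            Ex_smooth := fun a ha v hv => contDiffAt_Ex hU hΓ (hg a ha v hv).1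
            Ex_zero := fun a ha => Ex_zero hU hΓ (hWU ha)
            Ex_inj := ?_, vel_zero := ?_, vel_smooth := ?_
            hasDerivAt_Ex := fun a ha v hv t ht => hasDerivAt_Ex hU hΓ (hgt a ha v hv t ht)
            hasDerivAt_vel := ?_, speed := ?_, h_eq := ?_, h_smooth := ?_, h_fderiv := ?_
            isOpen_image := himg
            isOpen_ball := ?_, isCompact_closedBall := ?_
            W' := W1 ∩ (W0 ∩ We), r' := min (c * δ') (c * δ / 2)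
            isOpen_W' := hW1o.inter (hW0o.inter hWeo), mem_W' := ⟨hpW1, hpW0, hpWe⟩
            W'_sub := inter_subset_right, r'_pos := hr', r'_le := ?_, Ex_mem_W := ?_, seg := ?_ }⟩
  · -- Ex_inj
    intro a ha v w hv hw hvw
    have h1 := Θ.injOn (hg a ha v hv).2.2.1 (hg a ha w hw).2.2.1 (by
      rw [hΘc, hΘc]
      simp only [hΦ, hvw])
    exact congrArg Prod.snd h1
  · -- vel_zero
    intro a ha v hv
    rw [F_zero hU hΓ (z := (a, v)) (hWU ha)]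
  · -- vel_smooth
    intro a ha v hv t ht
    have h1 : ContDiffAt ℝ ∞ (fun q : ℝ × (E × E) => F U Γ (q.2, q.1)) (t, (a, v)) :=
      (contDiffAt_F hU hΓ (hgt a ha v hv t ht)).comp (t, (a, v))
        (contDiffAt_snd.prodMk contDiffAt_fst)
    exact contDiffAt_snd.comp (t, (a, v)) h1
  · -- hasDerivAt_vel
    intro a ha v hv t ht
    have h1 := hgt a ha v hv t ht
    rw [Ex_smul hU hΓ h1]
    exact hasDerivAt_F2 hU hΓ h1
  · -- speed
    intro a ha v hv t ht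
    have h1 := hgt a ha v hv t ht
    rw [Ex_smul hU hΓ h1]
    exact speed_const hLC h1
  · -- h_eq
    intro a ha v hv
    have h1 : Θ.symm (a, Ex U Γ (a, v)) = (a, v) := by
      have := Θ.left_inv (hg a ha v hv).2.2.1
      rwa [hΘc] at this
    simp only [h1]
  · -- h_smooth
    exact fun a ha v hv => hsm a ha v hv
  · -- h_fderiv
    intro a ha v hv ξ η
    obtain ⟨h1, -, h2, ⟨A, hA⟩⟩ := hg a ha v hv
    set h : E × E → ℝ := fun p => g (Θ.symm p).1 (Θ.symm p).2 (Θ.symm p).2 / 2 with hh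
    have hhd : DifferentiableAt ℝ h (Φ (a, v)) := (hsm a ha v hv).differentiableAt (by simp)
    have hΦd : HasFDerivAt Φ (fderiv ℝ Φ (a, v)) (a, v) :=
      ((hΦs _ h1).differentiableAt (by simp)).hasFDerivAt
    have hcomp : (fun y : E × E => g y.1 y.2 y.2) =ᶠ[𝓝 (a, v)] fun y => 2 * (h ∘ Φ) y := by
      filter_upwards [Θ.open_source.mem_nhds h2] with z hz
      have h3 : Θ.symm (Φ z) = z := by
        have := Θ.left_inv hz
        rwa [hΘc] at this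
      simp only [Function.comp, hh, h3]
      ring
    have h6 : fderiv ℝ (fun y : E × E => g y.1 y.2 y.2) (a, v) =
        (2 : ℝ) • (fderiv ℝ h (Φ (a, v))).comp (fderiv ℝ Φ (a, v)) := by
      rw [hcomp.fderiv_eq]
      exact ((hhd.hasFDerivAt.comp (a, v) hΦd).const_mul 2).fderiv
    have hζ : fderiv ℝ Φ (a, v) (A.symm (ξ, η)) = (ξ, η) := by
      rw [← hA]; exact A.apply_symm_apply _
    have h7 : fderiv ℝ Φ (a, v) (A.symm (ξ, η)) =
        ((A.symm (ξ, η)).1, fderiv ℝ (Ex U Γ) (a, v) (A.symm (ξ, η))) := by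
      have h8 : HasFDerivAt Φ ((ContinuousLinearMap.fst ℝ E E).prod (fderiv ℝ (Ex U Γ) (a, v)))
          (a, v) := by
        have h0 : HasFDerivAt (fun y : E × E => y.1) (ContinuousLinearMap.fst ℝ E E) (a, v) :=
          hasFDerivAt_fst
        exact h0.prodMk ((contDiffAt_Ex hU hΓ h1).differentiableAt (by simp)).hasFDerivAt
      rw [h8.fderiv]
      rfl
    have h9 : (A.symm (ξ, η)).1 = ξ := congrArg Prod.fst (h7.symm.trans hζ)
    have h10 : fderiv ℝ (Ex U Γ) (a, v) (A.symm (ξ, η)) = η :=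
      congrArg Prod.snd (h7.symm.trans hζ)
    have h11 := gauss hLC h1 (A.symm (ξ, η))
    rw [h6, h9, h10] at h11
    simp only [smul_apply, ContinuousLinearMap.coe_comp, Function.comp_apply, hζ,
      smul_eq_mul] at h11
    linarith
  · -- isOpen_ball
    intro a ha r hr hrρ
    have h1 := himg _ (hopenO r) (fun z hz => ⟨hz.1, hz.2.trans_le (pow_le_pow_left₀ hr.le hrρ 2)⟩)
    have h2 : Continuous (fun b : E => ((a, b) : E × E)) := by fun_prop
    convert h1.preimage h2 using 1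
    ext b
    simp only [mem_image, mem_preimage, hΦ]
    constructor
    · rintro ⟨v, hv, rfl⟩
      exact ⟨(a, v), ⟨ha, hv⟩, rfl⟩
    · rintro ⟨⟨a', v⟩, ⟨ha', hv⟩, h3⟩
      simp only [Prod.mk.injEq] at h3
      obtain ⟨rfl, rfl⟩ := h3
      exact ⟨v, hv, rfl⟩
  · -- isCompact_closedBall
    intro a ha r hr hrρ
    have h1 : IsCompact {v : E | g a v v ≤ r ^ 2} := by
      apply Metric.isCompact_of_isClosed_isBounded
      · have : Continuous (fun v : E => g a v v) := by fun_prop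
        exact isClosed_le this continuous_const
      · refine (Metric.isBounded_closedBall (x := (0 : E)) (r := r / c)).subset ?_
        intro v hv
        have h2 := hell a ha.2 v
        have h3 : (c * ‖v‖) ^ 2 ≤ r ^ 2 := by
          calc _ = c ^ 2 * ‖v‖ ^ 2 := by ring
            _ ≤ _ := h2
            _ ≤ _ := hv
        have h4 := abs_le_of_sq_le_sq h3 hr
        rw [mem_closedBall_zero_iff, le_div_iff₀ hc, mul_comm]
        exact (le_abs_self _).trans h4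
    refine h1.image_of_continuousOn fun v hv => ?_
    have h5 : g a v v < (c * δ) ^ 2 := hv.trans_lt (by
      exact pow_lt_pow_left₀ hrρ hr (by norm_num))
    have h6 : ContinuousAt (Ex U Γ) (a, v) :=
      (contDiffAt_Ex hU hΓ (hg a ha v h5).1).continuousAt
    have h7 : Continuous (fun v : E => ((a, v) : E × E)) := by fun_prop
    exact (ContinuousAt.comp (g := Ex U Γ) (f := fun v : E => ((a, v) : E × E)) h6
      h7.continuousAt).continuousWithinAt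
  · -- r'_le
    have := min_le_right (c * δ') (c * δ / 2)
    linarith
  · -- Ex_mem_W
    intro a ha v hv
    exact hin a ha.1 v (hsmall a ha.2 v δ' hδ' (hsq _ hv).2)
  · -- seg
    intro a ha v hv s t hs ht
    have h1 := hgt a ha.2 v (hsq _ hv).1 s hs
    have h2 := hgt a ha.2 v (hsq _ hv).1 t ht
    obtain ⟨h3, h4⟩ := F_restart hU hΓ h1 h2
    have h5 := Ex_smul hU hΓ (a := (F U Γ ((a, v), s)).1) (v := (F U Γ ((a, v), s)).2) (t := t - s)
      h3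
    rw [Ex_smul hU hΓ h1, Ex_smul hU hΓ h2, h5]
    exact congrArg Prod.fst h4

end Main

end Crest.Agent.R226.GeoLoc577
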