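/-
R226, layer A5 (helper996): `LocalNear n M x₀` from `LocGeo` (helper577), the chart metric
(helper842), distance facts (helper549) and bundle charts (helper771); final theorem
`nonempty_nearDiag : Nonempty (NearDiag n M)`.
-/
import Crest.Agent.R226.NearDiagThm_996
import Crest.Agent.R226.DistLoc_549
import Crest.Agent.R226.GeoLoc_577
import Crest.Agent.R226.ChartMet_842
import Crest.Agent.R226.TMSmooth_771

set_option autoImplicit false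
set_option maxSynthPendingDepth 3
set_option linter.unusedSectionVars false

open MeasureTheory Bundle Set Filter
open scoped Manifold ContDiff Bundle ENNReal Topology
open Crest.GeometryTopology.MTW Crest.Agent.R244
open Crest.Agent.R226.NearLem90 (dL hasDerivAt_comp_curve)
open Crest.Agent.R226.ChartMet842 Crest.Agent.R226.GeoLoc577 Crest.Agent.R226.TMSmooth771
open Crest.Agent.R226.NearDiagThm996

namespace Crest.Agent.R226.LocalNearThm996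

variable {n : ℕ} {M : Type*} [MetricSpace M] [ChartedSpace (EuclideanSpace ℝ (Fin n)) M]
  [IsManifold (𝓡 n) ∞ M]
  [RiemannianBundle (fun p : M => TangentSpace (𝓡 n) p)]
  [IsContMDiffRiemannianBundle (𝓡 n) ∞ (EuclideanSpace ℝ (Fin n)) (fun p : M => TangentSpace (𝓡 n) p)]

local notation "𝔼" => EuclideanSpace ℝ (Fin n)

theorem dC_congr (x₀ : M) {p q : M} (h : p = q) (u : 𝔼) :
    (dC x₀ p u : 𝔼) = dC x₀ q u := by
  subst h; rfl

theorem dC_dS' (x₀ : M) {x : M} (hx : x ∈ (chartAt 𝔼 x₀).source) (u : 𝔼) :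
    (dC x₀ x (dS x₀ (chartAt 𝔼 x₀ x) u) : 𝔼) = u := by
  have h := dC_dS x₀ ((chartAt 𝔼 x₀).map_source hx) u
  exact (dC_congr x₀ ((chartAt 𝔼 x₀).left_inv hx) _).symm.trans h

theorem dC_smul (x₀ x : M) (t : ℝ) (v : TangentSpace (𝓡 n) x) :
    dC x₀ x (t • v) = t • dC x₀ x v := (dC x₀ x).map_smul t v

/-- local geometry of the metric of `M` in the chart at `x₀` -/
abbrev LG (x₀ : M) := LocGeo (chartAt 𝔼 x₀).target (gm (n := n) x₀) (Gm x₀) (chartAt 𝔼 x₀ x₀)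

/-- the local exponential map in the chart at `x₀` -/
noncomputable def eloc (x₀ : M) (L : LG (n := n) x₀)
    (x : M) (v : TangentSpace (𝓡 n) x) : M :=
  (chartAt 𝔼 x₀).symm (L.Ex (chartAt 𝔼 x₀ x, dC x₀ x v))

variable (x₀ : M) (L : LG (n := n) x₀)

/-- base domain -/
def Wd : Set M := (chartAt 𝔼 x₀).source ∩ chartAt 𝔼 x₀ ⁻¹' L.W'

theorem isOpen_Wd : IsOpen (Wd x₀ L) :=
  (chartAt 𝔼 x₀).isOpen_inter_preimage L.isOpen_W'

theorem gm_lt {x : M} (hx : x ∈ (chartAt 𝔼 x₀).source) {v : TangentSpace (𝓡 n) x} {r : ℝ}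
    (hv : ‖v‖ < r) : gm x₀ (chartAt 𝔼 x₀ x) (dC x₀ x v) (dC x₀ x v) < r ^ 2 := by
  rw [← norm_sq_eq_gm x₀ hx]
  have := norm_nonneg v
  nlinarith

theorem r'_le_ρ : L.r' ≤ L.ρ := by
  have := L.r'_le; have := L.r'_pos; linarith

theorem curveVel_eloc {x : M} (hx : x ∈ Wd x₀ L) {v : TangentSpace (𝓡 n) x} (hv : ‖v‖ < L.r')
    {t : ℝ} (ht : |t| ≤ 1) :
    curveVel n (fun s : ℝ => eloc x₀ L x (s • v)) t =
      dS x₀ (L.Ex (chartAt 𝔼 x₀ x, t • dC x₀ x v)) (L.vel t (chartAt 𝔼 x₀ x, dC x₀ x v)) := by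
  have hW := L.W'_sub hx.2
  have hg := gm_lt x₀ hx.1 (hv.trans_le (r'_le_ρ x₀ L))
  have h1 := L.hasDerivAt_Ex _ hW _ hg t ht
  have hmem : L.Ex (chartAt 𝔼 x₀ x, t • dC x₀ x v) ∈ (chartAt 𝔼 x₀).target := by
    refine L.Ex_mem _ hW _ ?_
    rw [← dC_smul]
    refine gm_lt x₀ hx.1 ?_
    rw [norm_smul, Real.norm_eq_abs]
    have := norm_nonneg v
    have := r'_le_ρ x₀ L
    nlinarith [abs_nonneg t]
  have h2 := curveVel_symm (n := n) x₀ h1 hmem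
  have h3 : (fun s : ℝ => eloc x₀ L x (s • v)) =
      fun s : ℝ => (chartAt 𝔼 x₀).symm (L.Ex (chartAt 𝔼 x₀ x, s • dC x₀ x v)) := by
    funext s
    unfold eloc
    rw [dC_smul]
  rw [h3]
  exact h2

/-- curve through `x` in direction `ξ`, in the chart -/
theorem curveVel_line {x : M} (hx : x ∈ (chartAt 𝔼 x₀).source) (ξ : TangentSpace (𝓡 n) x) :
    curveVel n (fun s : ℝ => (chartAt 𝔼 x₀).symm (chartAt 𝔼 x₀ x + s • dC x₀ x ξ)) 0 =
      (ξ : 𝔼) := by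
  have h1 : HasDerivAt (fun s : ℝ => chartAt 𝔼 x₀ x + s • dC x₀ x ξ) (dC x₀ x ξ) 0 := by
    have := ((hasDerivAt_id (0 : ℝ)).smul_const (dC x₀ x ξ)).const_add (chartAt 𝔼 x₀ x)
    simpa using this
  have h2 := curveVel_symm (n := n) x₀ h1 (by simpa using (chartAt 𝔼 x₀).map_source hx)
  have h3 := dS_dC x₀ hx ξ
  have h4 : (dS x₀ (chartAt 𝔼 x₀ x + (0 : ℝ) • dC x₀ x ξ) (dC x₀ x ξ) : 𝔼) =
      dS x₀ (chartAt 𝔼 x₀ x) (dC x₀ x ξ) := by
    rw [zero_smul, add_zero]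
  exact (h2.trans h4).trans h3

theorem tmc_eq (p : TangentBundle (𝓡 n) M) :
    tmc x₀ p = (chartAt 𝔼 x₀ p.1, dC x₀ p.1 p.2) := rfl

/-- the facts about `dist` on `M` in the chart (layer A4) -/
structure DistFacts : Prop where
  radial : ∀ a ∈ L.W, ∀ v, gm x₀ a v v < L.ρ ^ 2 →
    dist ((chartAt 𝔼 x₀).symm a) ((chartAt 𝔼 x₀).symm (L.Ex (a, v))) = √(gm x₀ a v v)
  surj : ∀ a ∈ L.W, ∀ y : M, dist ((chartAt 𝔼 x₀).symm a) y < L.ρ →
    ∃ v, gm x₀ a v v < L.ρ ^ 2 ∧ √(gm x₀ a v v) = dist ((chartAt 𝔼 x₀).symm a) y ∧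
      y = (chartAt 𝔼 x₀).symm (L.Ex (a, v))
  radial_two : ∀ a ∈ L.W', ∀ v, gm x₀ a v v < L.r' ^ 2 → ∀ s t : ℝ, |s| ≤ 1 → |t| ≤ 1 →
    dist ((chartAt 𝔼 x₀).symm (L.Ex (a, s • v))) ((chartAt 𝔼 x₀).symm (L.Ex (a, t • v))) =
      |s - t| * √(gm x₀ a v v)
  smooth : ∀ a ∈ L.W, ∀ v, gm x₀ a v v < L.ρ ^ 2 →
    ContMDiffAt ((𝓡 n).prod (𝓡 n)) 𝓘(ℝ) ∞ (fun q : M × M => halfDistSq q.1 q.2)
      ((chartAt 𝔼 x₀).symm a, (chartAt 𝔼 x₀).symm (L.Ex (a, v)))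
  cost : ∀ a ∈ L.W, ∀ v, gm x₀ a v v < L.ρ ^ 2 → ∀ ξ : 𝔼, ∀ c : ℝ → 𝔼, ∀ t : ℝ, c t = a →
    HasDerivAt c ξ t →
    HasDerivAt (fun s => halfDistSq ((chartAt 𝔼 x₀).symm (c s))
      ((chartAt 𝔼 x₀).symm (L.Ex (a, v)))) (-(gm x₀ a v ξ)) t

variable {x₀} {L}

theorem localNear (D : DistFacts x₀ L) : Nonempty (LocalNear n M x₀) := by
  have hrρ := r'_le_ρ x₀ L
  have hsrc : ∀ x ∈ Wd x₀ L, (chartAt 𝔼 x₀).symm (chartAt 𝔼 x₀ x) = x :=
    fun x hx => (chartAt 𝔼 x₀).left_inv hx.1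
  have hnorm : ∀ x ∈ Wd x₀ L, ∀ v : TangentSpace (𝓡 n) x,
      √(gm x₀ (chartAt 𝔼 x₀ x) (dC x₀ x v) (dC x₀ x v)) = ‖v‖ :=
    fun x hx v => (norm_eq_sqrt_gm x₀ hx.1 v).symm
  have hsm : ∀ x ∈ Wd x₀ L, ∀ y, dist x y < L.r' →
      ContMDiffAt ((𝓡 n).prod (𝓡 n)) 𝓘(ℝ) ∞ (fun q : M × M => halfDistSq q.1 q.2) (x, y) := by
    intro x hx y hy
    obtain ⟨v, hv, -, hyv⟩ := D.surj _ (L.W'_sub hx.2) y
      (by rw [hsrc x hx]; exact hy.trans_le hrρ)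
    have := D.smooth _ (L.W'_sub hx.2) v hv
    rwa [← hyv, hsrc x hx] at this
  have hdist : ∀ x ∈ Wd x₀ L, ∀ v : TangentSpace (𝓡 n) x, ‖v‖ < L.r' →
      dist x (eloc x₀ L x v) = ‖v‖ := by
    intro x hx v hv
    have := D.radial _ (L.W'_sub hx.2) (dC x₀ x v) (gm_lt x₀ hx.1 (hv.trans_le hrρ))
    rw [hsrc x hx, hnorm x hx] at this
    exact this
  refine ⟨{
    W := Wd x₀ L
    isOpen_W := isOpen_Wd x₀ L
    mem_W := ⟨mem_chart_source _ _, L.mem_W'⟩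
    r := L.r'
    r_pos := L.r'_pos
    e := eloc x₀ L
    smooth := ?_
    smooth_cost := hsm
    e_zero := ?_
    vel_zero := ?_
    norm_vel := ?_
    dist_eq := ?_
    surj := ?_
    inj := ?_
    grad := ?_ }⟩
  · -- smoothness
    intro p hp hv
    have hW := L.W'_sub hp.2
    have hg := gm_lt x₀ hp.1 (hv.trans_le hrρ)
    have h1 : ContDiffAt ℝ ∞ L.Ex (tmc x₀ p) := L.Ex_smooth _ hW _ hg
    refine contMDiffAt_of_chart (x₀ := x₀) (x₁ := x₀) hp.1 h1 ?_ ?_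
    · have h2 := L.Ex_mem _ hW _ hg
      have h3 : L.Ex (tmc x₀ p) ∈ (chartAt 𝔼 x₀).target := h2
      have h4 : (extChartAt (𝓡 n) x₀).target = (chartAt 𝔼 x₀).target := by
        simp [extChartAt_target]
      rw [h4]
      exact h3
    · exact Filter.Eventually.of_forall fun q => rfl
  · intro x hx
    unfold eloc
    rw [map_zero, L.Ex_zero _ (L.W'_sub hx.2), hsrc x hx]
  · intro x hx v hv
    have h1 := curveVel_eloc x₀ L hx hv (t := 0) (by simp)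
    have hW := L.W'_sub hx.2
    have hg := gm_lt x₀ hx.1 (hv.trans_le hrρ)
    rw [L.vel_zero _ hW _ hg] at h1
    have h2 : (dS x₀ (L.Ex (chartAt 𝔼 x₀ x, (0 : ℝ) • dC x₀ x v)) (dC x₀ x v) : 𝔼) =
        dS x₀ (chartAt 𝔼 x₀ x) (dC x₀ x v) := by
      rw [zero_smul, L.Ex_zero _ hW]
    exact (h1.trans h2).trans (dS_dC x₀ hx.1 v)
  · intro x hx v hv t ht
    have hW := L.W'_sub hx.2
    have hg := gm_lt x₀ hx.1 (hv.trans_le hrρ)
    have h1 := curveVel_eloc x₀ L hx hv ht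
    have h2 : ‖curveVel n (fun s : ℝ => eloc x₀ L x (s • v)) t‖ =
        ‖dS x₀ (L.Ex (chartAt 𝔼 x₀ x, t • dC x₀ x v))
          (L.vel t (chartAt 𝔼 x₀ x, dC x₀ x v))‖ := by
      rw [h1]
      refine norm_congr (n := n) ?_ _
      unfold eloc
      rw [dC_smul]
    rw [h2, norm_dS, L.speed _ hW _ hg t ht, hnorm x hx]
  · intro x hx v hv s t hs ht
    have h := D.radial_two _ hx.2 (dC x₀ x v) (gm_lt x₀ hx.1 hv) s t hs ht
    rw [hnorm x hx] at h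
    unfold eloc
    rw [dC_smul, dC_smul]
    exact h
  · intro x hx y hy
    obtain ⟨v, hv, hvd, hyv⟩ := D.surj _ (L.W'_sub hx.2) y
      (by rw [hsrc x hx]; exact hy.trans_le hrρ)
    rw [hsrc x hx] at hvd
    have h1 : (dC x₀ x (dS x₀ (chartAt 𝔼 x₀ x) v) : 𝔼) = v := dC_dS' x₀ hx.1 v
    refine ⟨(dS x₀ (chartAt 𝔼 x₀ x) v : 𝔼), ?_, ?_⟩
    · have h2 := hnorm x hx (dS x₀ (chartAt 𝔼 x₀ x) v : 𝔼)
      rw [h1] at h2
      rw [← h2, hvd]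
    · unfold eloc
      rw [h1]
      exact hyv.symm
  · intro x hx v w hv hw h
    have hW := L.W'_sub hx.2
    have hgv := gm_lt x₀ hx.1 (hv.trans_le hrρ)
    have hgw := gm_lt x₀ hx.1 (hw.trans_le hrρ)
    have h1 : L.Ex (chartAt 𝔼 x₀ x, dC x₀ x v) = L.Ex (chartAt 𝔼 x₀ x, dC x₀ x w) :=
      (chartAt 𝔼 x₀).symm.injOn (L.Ex_mem _ hW _ hgv) (L.Ex_mem _ hW _ hgw) h
    have h2 := L.Ex_inj _ hW _ _ hgv hgw h1
    have h3 := dS_dC x₀ hx.1 v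
    have h4 := dS_dC x₀ hx.1 w
    rw [← h3, ← h4, h2]
  · intro x hx v hv ξ
    have hW := L.W'_sub hx.2
    have hg := gm_lt x₀ hx.1 (hv.trans_le hrρ)
    have hd := hdist x hx v hv
    have hf : MDifferentiableAt (𝓡 n) 𝓘(ℝ) (fun x' : M => halfDistSq x' (eloc x₀ L x v)) x := by
      have h1 := hsm x hx (eloc x₀ L x v) (by rw [hd]; exact hv)
      have h2 : ContMDiffAt (𝓡 n) ((𝓡 n).prod (𝓡 n)) ∞ (fun x' : M => (x', eloc x₀ L x v)) x :=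
        contMDiffAt_id.prodMk contMDiffAt_const
      exact (h1.comp x h2).mdifferentiableAt (by simp)
    have hc : HasDerivAt (fun s : ℝ => chartAt 𝔼 x₀ x + s • dC x₀ x ξ) (dC x₀ x ξ) 0 := by
      have := ((hasDerivAt_id (0 : ℝ)).smul_const (dC x₀ x ξ)).const_add (chartAt 𝔼 x₀ x)
      simpa using this
    have hγ : MDifferentiableAt 𝓘(ℝ, ℝ) (𝓡 n)
        (fun s : ℝ => (chartAt 𝔼 x₀).symm (chartAt 𝔼 x₀ x + s • dC x₀ x ξ)) 0 :=
      mdifferentiableAt_symm_comp x₀ hc.differentiableAt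
        (by simpa using (chartAt 𝔼 x₀).map_source hx.1)
    have hx0 : (fun s : ℝ => (chartAt 𝔼 x₀).symm (chartAt 𝔼 x₀ x + s • dC x₀ x ξ)) 0 = x := by
      dsimp only
      rw [zero_smul, add_zero]; exact hsrc x hx
    have h1 := hasDerivAt_comp_curve (n := n) hx0 hf hγ
    have h2 := D.cost _ hW (dC x₀ x v) hg (dC x₀ x ξ) _ 0 (by simp) hc
    have h3 := h1.unique h2
    have h4 := curveVel_line x₀ hx.1 ξ
    rw [h4] at h3
    rw [inner_eq_gm x₀ hx.1 v ξ]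
    exact h3

end Crest.Agent.R226.LocalNearThm996
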