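/-
R226, layer A final (helper996): the distance facts `DistFacts x₀ L` from `LocGeo` (helper577),
the chart metric (helper842) and `DistLoc_549` (helper549); `nonempty_nearDiag`.
-/
import Crest.Agent.R226.LocalNearThm_996

set_option autoImplicit false
set_option maxSynthPendingDepth 3
set_option linter.unusedSectionVars false

open MeasureTheory Bundle Set Filter
open scoped Manifold ContDiff Bundle ENNReal Topology
open Crest.GeometryTopology.MTW Crest.Agent.R244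
open Crest.Agent.R226.ChartMet842 Crest.Agent.R226.GeoLoc577 Crest.Agent.R226.TMSmooth771
open Crest.Agent.R226.NearDiagThm996 Crest.Agent.R226.LocalNearThm996

namespace Crest.Agent.R226.NearDiagFinal996

section Abstract

variable {E : Type*} [NormedAddCommGroup E] [NormedSpace ℝ E]
variable {U : Set E} {g : E → E →L[ℝ] E →L[ℝ] ℝ} {Γ : E → E →L[ℝ] E →L[ℝ] E} {p0 : E}

theorem g_nonneg (hLC : CF.IsLC U g Γ) {a : E} (ha : a ∈ U) (v : E) : 0 ≤ g a v v := by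
  by_cases hv : v = 0
  · simp [hv]
  · exact (hLC.g_pos a ha v hv).le

theorem g_smul (a v : E) (t : ℝ) : g a (t • v) (t • v) = t ^ 2 * g a v v := by
  simp only [map_smul, _root_.smul_apply, smul_eq_mul]
  ring

/-- Cauchy–Schwarz for `g a` -/
theorem g_cs (hLC : CF.IsLC U g Γ) {a : E} (ha : a ∈ U) (v w : E) :
    (g a v w) ^ 2 ≤ g a v v * g a w w := by
  have key : ∀ t : ℝ, 0 ≤ g a w w * (t * t) + (2 * g a v w) * t + g a v v := by
    intro t
    have h := g_nonneg hLC ha (v + t • w)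
    have e : g a (v + t • w) (v + t • w) = g a w w * (t * t) + (2 * g a v w) * t + g a v v := by
      have hs := hLC.g_symm a ha v w
      simp only [map_add, map_smul, _root_.add_apply, _root_.smul_apply, smul_eq_mul]
      rw [← hs]
      ring
    rwa [e] at h
  have hd := discrim_le_zero key
  unfold discrim at hd
  nlinarith

variable (L : LocGeo U g Γ p0)

/-- the disc bundle -/
def Disc : Set (E × E) := {z | z.1 ∈ L.W ∧ g z.1 z.2 z.2 < L.ρ ^ 2}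

theorem isOpen_Disc (hLC : CF.IsLC U g Γ) : IsOpen (Disc L) := by
  have h1 : ContinuousOn (fun z : E × E => g z.1 z.2 z.2) (L.W ×ˢ univ) := by
    intro z hz
    have hg : ContinuousAt g z.1 :=
      (hLC.g_smooth.continuousOn.continuousAt (hLC.isOpen.mem_nhds (L.W_sub hz.1)))
    have hg' : ContinuousAt (fun z : E × E => g z.1) z :=
      ContinuousAt.comp (g := g) (f := Prod.fst) hg continuousAt_fst
    exact ((hg'.clm_apply continuousAt_snd).clm_apply continuousAt_snd).continuousWithinAt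
  have h2 := h1.isOpen_inter_preimage (L.isOpen_W.prod isOpen_univ) (isOpen_Iio (a := L.ρ ^ 2))
  convert h2 using 1
  ext z
  simp [Disc]

/-- the image of the disc bundle -/
def DiscImg : Set (E × E) := (fun z : E × E => (z.1, L.Ex z)) '' Disc L

theorem isOpen_DiscImg (hLC : CF.IsLC U g Γ) : IsOpen (DiscImg L) :=
  L.isOpen_image _ (isOpen_Disc L hLC) fun _ hz => hz

/-- the local ball -/
def Ob (a : E) : Set E := (fun v => L.Ex (a, v)) '' {v | g a v v < L.ρ ^ 2}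

theorem hasFDerivAt_h_snd {a : E} (ha : a ∈ L.W) {v : E} (hv : g a v v < L.ρ ^ 2) :
    HasFDerivAt (fun b => L.h (a, b))
      ((fderiv ℝ L.h (a, L.Ex (a, v))).comp (ContinuousLinearMap.inr ℝ E E)) (L.Ex (a, v)) := by
  have hd : DifferentiableAt ℝ L.h (a, L.Ex (a, v)) :=
    (L.h_smooth a ha v hv).differentiableAt (by simp)
  exact HasFDerivAt.comp (L.Ex (a, v)) (f := fun b : E => ((a, b) : E × E)) (g := L.h)
    hd.hasFDerivAt (hasFDerivAt_prodMk_right a (L.Ex (a, v)))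

theorem h_bound (hLC : CF.IsLC U g Γ) {a : E} (ha : a ∈ L.W) :
    ∀ b ∈ Ob L a, DifferentiableAt ℝ (fun b => L.h (a, b)) b ∧
      ∀ w, (fderiv ℝ (fun b => L.h (a, b)) b w) ^ 2 ≤ 2 * L.h (a, b) * g b w w := by
  rintro b ⟨v, hv, rfl⟩
  have hv' : g a v v < L.ρ ^ 2 := hv
  have h1 := hasFDerivAt_h_snd L ha hv'
  refine ⟨h1.differentiableAt, fun w => ?_⟩
  dsimp only
  rw [h1.fderiv]
  have h2 : ((fderiv ℝ L.h (a, L.Ex (a, v))).comp (ContinuousLinearMap.inr ℝ E E)) w =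
      g (L.Ex (a, v)) (L.vel 1 (a, v)) w := by
    have := L.h_fderiv a ha v hv' 0 w
    simpa using this
  rw [h2, L.h_eq a ha v hv']
  have h3 := L.speed a ha v hv' 1 (by simp)
  rw [one_smul] at h3
  have h4 := g_cs hLC (L.Ex_mem a ha v hv') (L.vel 1 (a, v)) w
  rw [h3] at h4
  calc _ ≤ _ := h4
    _ = _ := by ring

theorem h_nonneg (hLC : CF.IsLC U g Γ) {a : E} (ha : a ∈ L.W) :
    ∀ b ∈ Ob L a, 0 ≤ L.h (a, b) := by
  rintro b ⟨v, hv, rfl⟩
  have hv' : g a v v < L.ρ ^ 2 := hv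
  dsimp only
  rw [L.h_eq a ha v hv']
  have := g_nonneg hLC (L.W_sub ha) v
  positivity

theorem zero_mem_disc {a : E} : g a 0 0 < L.ρ ^ 2 := by
  have := L.ρ_pos
  simp only [map_zero]
  positivity

theorem h_zero {a : E} (ha : a ∈ L.W) : L.h (a, a) = 0 := by
  have h1 := L.h_eq a ha 0 (zero_mem_disc L)
  rw [L.Ex_zero a ha] at h1
  simpa using h1

theorem h_compact {a : E} (ha : a ∈ L.W) {r : ℝ} (hr : 0 < r) (hrρ : r < L.ρ) :
    IsCompact {b ∈ Ob L a | 2 * L.h (a, b) ≤ r ^ 2} := by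
  have h1 := L.isCompact_closedBall a ha r hr.le hrρ
  convert h1 using 1
  ext b
  constructor
  · rintro ⟨⟨v, hv, rfl⟩, hb⟩
    have hv' : g a v v < L.ρ ^ 2 := hv
    dsimp only at hb
    rw [L.h_eq a ha v hv'] at hb
    exact ⟨v, by simp only [mem_setOf_eq]; linarith, rfl⟩
  · rintro ⟨v, hv, rfl⟩
    have hv1 : g a v v ≤ r ^ 2 := hv
    have hv' : g a v v < L.ρ ^ 2 := by nlinarith [L.ρ_pos]
    refine ⟨⟨v, hv', rfl⟩, ?_⟩
    dsimp only
    rw [L.h_eq a ha v hv']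
    linarith

end Abstract

section Mfd

variable {n : ℕ} {M : Type*} [MetricSpace M] [ChartedSpace (EuclideanSpace ℝ (Fin n)) M]
  [IsManifold (𝓡 n) ∞ M]
  [RiemannianBundle (fun p : M => TangentSpace (𝓡 n) p)]
  [IsContMDiffRiemannianBundle (𝓡 n) ∞ (EuclideanSpace ℝ (Fin n)) (fun p : M => TangentSpace (𝓡 n) p)]
  [IsRiemannianManifold (𝓡 n) M]

local notation "𝔼" => EuclideanSpace ℝ (Fin n)

theorem isContinuousRiemannianBundle :
    IsContinuousRiemannianBundle (EuclideanSpace ℝ (Fin n)) (fun p : M => TangentSpace (𝓡 n) p) := by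
  obtain ⟨g, hg, hg'⟩ := (inferInstance : IsContMDiffRiemannianBundle (𝓡 n) ∞
    (EuclideanSpace ℝ (Fin n)) (fun p : M => TangentSpace (𝓡 n) p)).exists_contMDiff
  exact ⟨g, hg.continuous, hg'⟩

attribute [local instance] isContinuousRiemannianBundle

theorem isChartMetric_gm (x₀ : M) : CNInt.IsChartMetric x₀ (gm (n := n) x₀) := by
  intro y _ u
  exact (norm_sq_dS x₀ y u).symm

variable (x₀ : M) (L : LG (n := n) x₀)

theorem lower_dist' {a : 𝔼} (ha : a ∈ L.W) {y : M}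
    (hy : dist ((chartAt 𝔼 x₀).symm a) y < L.ρ) :
    y ∈ (chartAt 𝔼 x₀).source ∧ chartAt 𝔼 x₀ y ∈ Ob L a ∧
      √(2 * L.h (a, chartAt 𝔼 x₀ y)) ≤ dist ((chartAt 𝔼 x₀).symm a) y := by
  have hLC := isLC_gm (n := n) x₀
  refine DistLoc549.lower_dist (isChartMetric_gm x₀) (O := Ob L a) (h := fun b => L.h (a, b))
    (L.isOpen_ball a ha L.ρ L.ρ_pos le_rfl) ?_ ?_ (h_zero L ha) (h_nonneg L hLC ha)
    (h_bound L hLC ha) (ρ := L.ρ) (fun r hr hrρ => h_compact L ha hr hrρ) hy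
  · rintro b ⟨v, hv, rfl⟩
    exact L.Ex_mem a ha v hv
  · exact ⟨0, zero_mem_disc L, L.Ex_zero a ha⟩

theorem upper_dist {a : 𝔼} (ha : a ∈ L.W) {v : 𝔼} (hv : gm x₀ a v v < L.ρ ^ 2) :
    dist ((chartAt 𝔼 x₀).symm a) ((chartAt 𝔼 x₀).symm (L.Ex (a, v))) ≤ √(gm x₀ a v v) := by
  have hLC := isLC_gm (n := n) x₀
  have hn := g_nonneg hLC (L.W_sub ha) v
  have hdisc : ∀ t : ℝ, |t| ≤ 1 → gm x₀ a (t • v) (t • v) < L.ρ ^ 2 := by
    intro t ht
    rw [g_smul]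
    have : t ^ 2 ≤ 1 := by
      rw [← sq_abs]
      have := abs_nonneg t
      nlinarith
    nlinarith
  have habs : ∀ t ∈ Icc (0:ℝ) 1, |t| ≤ 1 := fun t ht => by
    rw [abs_of_nonneg ht.1]; exact ht.2
  have h := DistLoc549.dist_le_of_speed (isChartMetric_gm (n := n) x₀)
    (c := fun t : ℝ => L.Ex (a, t • v)) (s := 0) (t := 1) (σ := √(gm x₀ a v v)) zero_le_one
    (Real.sqrt_nonneg _) ?_ ?_ ?_
  · simpa [L.Ex_zero a ha] using h
  · intro t ht
    have h1 : ContDiffAt ℝ ∞ L.Ex (a, t • v) := L.Ex_smooth a ha _ (hdisc t (habs t ht))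
    have h2 : ContDiffAt ℝ ∞ (fun t : ℝ => ((a, t • v) : 𝔼 × 𝔼)) t := by fun_prop
    have h3 : ContDiffAt ℝ ∞ (fun t : ℝ => L.Ex (a, t • v)) t :=
      ContDiffAt.comp t (f := fun t : ℝ => ((a, t • v) : 𝔼 × 𝔼)) h1 h2
    exact (h3.of_le (by simp)).contDiffWithinAt
  · intro t ht
    exact L.Ex_mem a ha _ (hdisc t (habs t ht))
  · intro t ht
    have ht' : |t| ≤ 1 := habs t (Ioo_subset_Icc_self ht)
    have h1 := (L.hasDerivAt_Ex a ha v hv t ht').deriv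
    rw [h1, L.speed a ha v hv t ht', Real.sq_sqrt hn]

theorem radial {a : 𝔼} (ha : a ∈ L.W) {v : 𝔼} (hv : gm x₀ a v v < L.ρ ^ 2) :
    dist ((chartAt 𝔼 x₀).symm a) ((chartAt 𝔼 x₀).symm (L.Ex (a, v))) = √(gm x₀ a v v) := by
  apply le_antisymm (upper_dist x₀ L ha hv)
  have hlt : √(gm x₀ a v v) < L.ρ := by
    rw [Real.sqrt_lt' L.ρ_pos]; exact hv
  have h := (lower_dist' x₀ L ha ((upper_dist x₀ L ha hv).trans_lt hlt)).2.2
  rw [(chartAt 𝔼 x₀).right_inv (L.Ex_mem a ha v hv), L.h_eq a ha v hv] at h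
  calc _ = √(2 * (gm x₀ a v v / 2)) := by congr 1; ring
    _ ≤ _ := h

theorem halfDistSq_eq' {a v : 𝔼} (ha : a ∈ L.W) (hv : gm x₀ a v v < L.ρ ^ 2) :
    halfDistSq ((chartAt 𝔼 x₀).symm a) ((chartAt 𝔼 x₀).symm (L.Ex (a, v))) =
      L.h (a, L.Ex (a, v)) := by
  unfold halfDistSq
  rw [radial x₀ L ha hv, L.h_eq a ha v hv,
    Real.sq_sqrt (g_nonneg (isLC_gm x₀) (L.W_sub ha) v)]

theorem halfDistSq_eq {a b : 𝔼} (h3 : (a, b) ∈ DiscImg L) :
    halfDistSq ((chartAt 𝔼 x₀).symm a) ((chartAt 𝔼 x₀).symm b) = L.h (a, b) := by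
  obtain ⟨⟨a', v⟩, ⟨ha, hv⟩, he⟩ := h3
  obtain ⟨rfl, rfl⟩ := Prod.mk.inj he
  exact halfDistSq_eq' x₀ L ha hv

theorem distFacts : DistFacts x₀ L where
  radial := fun a ha v hv => radial x₀ L ha hv
  surj := by
    intro a ha y hy
    obtain ⟨h1, ⟨v, hv, hev⟩, -⟩ := lower_dist' x₀ L ha hy
    have hv' : gm x₀ a v v < L.ρ ^ 2 := hv
    have hev' : L.Ex (a, v) = chartAt 𝔼 x₀ y := hev
    have hyv : y = (chartAt 𝔼 x₀).symm (L.Ex (a, v)) := by
      rw [hev', (chartAt 𝔼 x₀).left_inv h1]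
    refine ⟨v, hv', ?_, hyv⟩
    have := radial x₀ L ha hv'
    rw [← hyv] at this
    exact this.symm
  radial_two := by
    intro a ha v hv s t hs ht
    have haW := L.W'_sub ha
    have hrρ := r'_le_ρ x₀ L
    have hvρ : gm x₀ a v v < L.ρ ^ 2 := by
      have := L.r'_pos
      nlinarith
    have hn := g_nonneg (isLC_gm (n := n) x₀) (L.W_sub haW) v
    have hsq : ∀ u : ℝ, |u| ≤ 1 → u ^ 2 ≤ 1 := by
      intro u hu
      rw [← sq_abs]
      have := abs_nonneg u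
      nlinarith
    have hb : L.Ex (a, s • v) ∈ L.W := by
      apply L.Ex_mem_W a ha
      rw [g_smul]
      nlinarith [hsq s hs]
    have hsp := L.speed a haW v hvρ s hs
    have hts : (t - s) ^ 2 ≤ 4 := by
      have h1 := abs_le.1 hs
      have h2 := abs_le.1 ht
      nlinarith
    have hw : gm x₀ (L.Ex (a, s • v)) ((t - s) • L.vel s (a, v)) ((t - s) • L.vel s (a, v)) =
        (t - s) ^ 2 * gm x₀ a v v := by
      rw [g_smul, hsp]
    have hwρ : gm x₀ (L.Ex (a, s • v)) ((t - s) • L.vel s (a, v)) ((t - s) • L.vel s (a, v)) <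
        L.ρ ^ 2 := by
      rw [hw]
      have h1 := L.r'_le
      have h2 := L.r'_pos
      nlinarith
    have h := radial x₀ L hb hwρ
    rw [L.seg a ha v hv s t hs ht, hw, Real.sqrt_mul (sq_nonneg _), Real.sqrt_sq_eq_abs] at h
    rw [h, abs_sub_comm]
  smooth := by
    intro a ha v hv
    have hLC := isLC_gm (n := n) x₀
    have haT := L.W_sub ha
    have hbT := L.Ex_mem a ha v hv
    have h1 : ContMDiffAt (𝓡 n) 𝓘(ℝ, 𝔼) ∞ (chartAt 𝔼 x₀) ((chartAt 𝔼 x₀).symm a) :=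
      contMDiffOn_chart.contMDiffAt
        ((chartAt 𝔼 x₀).open_source.mem_nhds ((chartAt 𝔼 x₀).map_target haT))
    have h2 : ContMDiffAt (𝓡 n) 𝓘(ℝ, 𝔼) ∞ (chartAt 𝔼 x₀)
        ((chartAt 𝔼 x₀).symm (L.Ex (a, v))) :=
      contMDiffOn_chart.contMDiffAt
        ((chartAt 𝔼 x₀).open_source.mem_nhds ((chartAt 𝔼 x₀).map_target hbT))
    set q0 : M × M := ((chartAt 𝔼 x₀).symm a, (chartAt 𝔼 x₀).symm (L.Ex (a, v))) with hq0
    have h3 : ContMDiffAt ((𝓡 n).prod (𝓡 n)) 𝓘(ℝ, 𝔼) ∞ (fun q : M × M => chartAt 𝔼 x₀ q.1) q0 :=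
      ContMDiffAt.comp q0 (g := chartAt 𝔼 x₀) h1 contMDiffAt_fst
    have h4 : ContMDiffAt ((𝓡 n).prod (𝓡 n)) 𝓘(ℝ, 𝔼) ∞ (fun q : M × M => chartAt 𝔼 x₀ q.2) q0 :=
      ContMDiffAt.comp q0 (g := chartAt 𝔼 x₀) h2 contMDiffAt_snd
    have h5 : ContMDiffAt ((𝓡 n).prod (𝓡 n)) 𝓘(ℝ, 𝔼 × 𝔼) ∞
        (fun q : M × M => (chartAt 𝔼 x₀ q.1, chartAt 𝔼 x₀ q.2)) q0 := h3.prodMk_space h4
    have hval : ((chartAt 𝔼 x₀ q0.1, chartAt 𝔼 x₀ q0.2) : 𝔼 × 𝔼) = (a, L.Ex (a, v)) := by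
      simp only [hq0]
      rw [(chartAt 𝔼 x₀).right_inv haT, (chartAt 𝔼 x₀).right_inv hbT]
    have h6 : ContMDiffAt 𝓘(ℝ, 𝔼 × 𝔼) 𝓘(ℝ) ∞ L.h (chartAt 𝔼 x₀ q0.1, chartAt 𝔼 x₀ q0.2) := by
      rw [hval]
      exact (L.h_smooth a ha v hv).contMDiffAt
    have h7 : ContMDiffAt ((𝓡 n).prod (𝓡 n)) 𝓘(ℝ) ∞
        (fun q : M × M => L.h (chartAt 𝔼 x₀ q.1, chartAt 𝔼 x₀ q.2)) q0 :=
      ContMDiffAt.comp q0 (g := L.h) h6 h5
    refine h7.congr_of_eventuallyEq ?_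
    have c1 : ∀ᶠ q in 𝓝 q0, q.1 ∈ (chartAt 𝔼 x₀).source :=
      continuousAt_fst.eventually_mem
        ((chartAt 𝔼 x₀).open_source.mem_nhds ((chartAt 𝔼 x₀).map_target haT))
    have c2 : ∀ᶠ q in 𝓝 q0, q.2 ∈ (chartAt 𝔼 x₀).source :=
      continuousAt_snd.eventually_mem
        ((chartAt 𝔼 x₀).open_source.mem_nhds ((chartAt 𝔼 x₀).map_target hbT))
    have c3 : ∀ᶠ q in 𝓝 q0, (chartAt 𝔼 x₀ q.1, chartAt 𝔼 x₀ q.2) ∈ DiscImg L := by
      have := h5.continuousAt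
      apply this.eventually_mem
      rw [hval]
      exact (isOpen_DiscImg L hLC).mem_nhds ⟨(a, v), ⟨ha, hv⟩, rfl⟩
    filter_upwards [c1, c2, c3] with q a1 a2 a3
    have h8 := halfDistSq_eq x₀ L a3
    rw [(chartAt 𝔼 x₀).left_inv a1, (chartAt 𝔼 x₀).left_inv a2] at h8
    exact h8
  cost := by
    intro a ha v hv ξ c t hc hcd
    have hLC := isLC_gm (n := n) x₀
    have haT := L.W_sub ha
    have hbT := L.Ex_mem a ha v hv
    have hd : DifferentiableAt ℝ L.h (a, L.Ex (a, v)) :=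
      (L.h_smooth a ha v hv).differentiableAt (by simp)
    have hd' : HasFDerivAt L.h (fderiv ℝ L.h (a, L.Ex (a, v))) (c t, L.Ex (a, v)) := by
      rw [hc]; exact hd.hasFDerivAt
    have h1 : HasDerivAt (fun s => ((c s, L.Ex (a, v)) : 𝔼 × 𝔼)) (ξ, 0) t :=
      hcd.prodMk (hasDerivAt_const t _)
    have h2 := HasFDerivAt.comp_hasDerivAt (l := L.h)
      (f := fun s => ((c s, L.Ex (a, v)) : 𝔼 × 𝔼)) t hd' h1
    have h3 : fderiv ℝ L.h (a, L.Ex (a, v)) (ξ, 0) = -(gm x₀ a v ξ) := by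
      rw [L.h_fderiv a ha v hv]
      simp
    rw [h3] at h2
    refine h2.congr_of_eventuallyEq ?_
    have c1 : ∀ᶠ s in 𝓝 t, ((c s, L.Ex (a, v)) : 𝔼 × 𝔼) ∈ DiscImg L := by
      apply h1.continuousAt.eventually_mem
      rw [hc]
      exact (isOpen_DiscImg L hLC).mem_nhds ⟨(a, v), ⟨ha, hv⟩, rfl⟩
    filter_upwards [c1] with s a1
    exact halfDistSq_eq x₀ L a1

end Mfd

/-- **Layer A**: near-diagonal Riemannian geometry of a compact Riemannian manifold. -/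
theorem nonempty_nearDiag {n : ℕ} {M : Type*} [MetricSpace M]
    [ChartedSpace (EuclideanSpace ℝ (Fin n)) M]
    [IsManifold (𝓡 n) ∞ M]
    [RiemannianBundle (fun p : M => TangentSpace (𝓡 n) p)]
    [IsContMDiffRiemannianBundle (𝓡 n) ∞ (EuclideanSpace ℝ (Fin n)) (fun p : M => TangentSpace (𝓡 n) p)]
    [IsRiemannianManifold (𝓡 n) M] [CompactSpace M] : Nonempty (NearDiag n M) := by
  apply nonempty_nearDiag_of_localNear
  intro x₀
  obtain ⟨L⟩ := exists_locGeo (isLC_gm (n := n) x₀) (mem_chart_target _ x₀)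
  exact localNear (distFacts x₀ L)

end Crest.Agent.R226.NearDiagFinal996
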