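import Mathlib
import Crest.Agent.R226.DistLoc_549
import Crest.Agent.R226.GeoLoc_577
import Crest.Prelude.Def_RiemannianMTW

/-!
R226, task A4 (helper549), second part: the distance of `M` near a point, from the chart-level
local geometry `LocGeo` (helper577).
-/

set_option autoImplicit false

open Set Filter Topology MeasureTheory Manifold Bundle
open scoped ENNReal NNReal ContDiff Manifold
open Crest.Agent.R244.CNInt Crest.Agent.R244
open Crest.Agent.R226.DistLoc549 Crest.Agent.R226.GeoLoc577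
open Crest.GeometryTopology.MTW

set_option linter.unusedSectionVars false

noncomputable section

namespace Crest.Agent.R226.DistGeo549

section algebra

variable {E : Type*} [NormedAddCommGroup E] [NormedSpace ℝ E]
variable {U : Set E} {g : E → E →L[ℝ] E →L[ℝ] ℝ} {Γ : E → E →L[ℝ] E →L[ℝ] E}

/-- Cauchy–Schwarz for a symmetric nonnegative bilinear form. -/
theorem cauchy_of_nonneg (B : E →L[ℝ] E →L[ℝ] ℝ) (hs : ∀ u v, B u v = B v u)
    (hnn : ∀ v, 0 ≤ B v v) (u v : E) : (B u v) ^ 2 ≤ B u u * B v v := by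
  have key : ∀ t : ℝ, 0 ≤ B u u * (t * t) + (2 * B u v) * t + B v v := by
    intro t
    have h := hnn (t • u + v)
    simp only [map_add, map_smul, add_apply, smul_apply, smul_eq_mul] at h
    rw [hs v u] at h
    linarith
  have := discrim_le_zero key
  rw [discrim] at this
  nlinarith

end algebra

section

variable {E : Type*} [NormedAddCommGroup E] [NormedSpace ℝ E]
  {M : Type*} [MetricSpace M] [ChartedSpace E M]
  [RiemannianBundle (fun x : M => TangentSpace 𝓘(ℝ, E) x)]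
  [IsManifold 𝓘(ℝ, E) 1 M]
  [IsContinuousRiemannianBundle E (fun x : M => TangentSpace 𝓘(ℝ, E) x)]
  [IsRiemannianManifold 𝓘(ℝ, E) M]

variable {x0 : M} {g : E → E →L[ℝ] E →L[ℝ] ℝ} {Γ : E → E →L[ℝ] E →L[ℝ] E} {p0 : E}

/-- the open `g_a`-ball of radius `ρ` is mapped by `Ex (a, ·)` onto the domain `O`. -/
def ball (L : LocGeo (chartAt E x0).target g Γ p0) (a : E) : Set E :=
  (fun v => L.Ex (a, v)) '' {v | g a v v < L.ρ ^ 2}

variable (hG : IsChartMetric x0 g) (hLC : CF.IsLC (chartAt E x0).target g Γ)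
  (L : LocGeo (chartAt E x0).target g Γ p0)

include hG hLC

theorem surj_aux {a : E} (ha : a ∈ L.W) {y : M}
    (hy : dist ((chartAt E x0).symm a) y < L.ρ) :
    ∃ v : E, g a v v < L.ρ ^ 2 ∧ Real.sqrt (g a v v) ≤ dist ((chartAt E x0).symm a) y ∧
      y ∈ (chartAt E x0).source ∧ y = (chartAt E x0).symm (L.Ex (a, v)) := by
  have haU : a ∈ (chartAt E x0).target := L.W_sub ha
  have hρ := L.ρ_pos
  have hnn := hLC.nonneg haU
  have ha0 : g a 0 0 < L.ρ ^ 2 := by simp only [map_zero]; positivity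
  have hO : IsOpen (ball L a) := L.isOpen_ball a ha L.ρ hρ le_rfl
  have hOU : ball L a ⊆ (chartAt E x0).target := by
    rintro _ ⟨v, hv, rfl⟩
    exact L.Ex_mem a ha v hv
  have haO : a ∈ ball L a := ⟨0, ha0, L.Ex_zero a ha⟩
  have h0 : L.h (a, a) = 0 := by
    have := L.h_eq a ha 0 ha0
    rw [L.Ex_zero a ha] at this
    rw [this]; simp
  have hhnn : ∀ b ∈ ball L a, 0 ≤ L.h (a, b) := by
    rintro _ ⟨v, hv, rfl⟩
    simp only
    rw [L.h_eq a ha v hv]
    have := hnn v
    positivity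
  have hd : ∀ b ∈ ball L a, DifferentiableAt ℝ (fun b => L.h (a, b)) b ∧
      ∀ w, (fderiv ℝ (fun b => L.h (a, b)) b w) ^ 2 ≤ 2 * L.h (a, b) * g b w w := by
    rintro _ ⟨v, hv, rfl⟩
    simp only
    have hdd : DifferentiableAt ℝ L.h (a, L.Ex (a, v)) :=
      (L.h_smooth a ha v hv).differentiableAt (by simp)
    have h1 : HasFDerivAt (fun b : E => L.h (a, b))
        ((fderiv ℝ L.h (a, L.Ex (a, v))).comp (ContinuousLinearMap.inr ℝ E E)) (L.Ex (a, v)) := by
      exact hdd.hasFDerivAt.comp (L.Ex (a, v)) (hasFDerivAt_prodMk_right a (L.Ex (a, v)))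
    refine ⟨h1.differentiableAt, fun w => ?_⟩
    rw [h1.fderiv]
    have h2 : (((fderiv ℝ L.h (a, L.Ex (a, v))).comp (ContinuousLinearMap.inr ℝ E E)) w) =
        g (L.Ex (a, v)) (L.vel 1 (a, v)) w := by
      rw [ContinuousLinearMap.comp_apply, ContinuousLinearMap.inr_apply,
        L.h_fderiv a ha v hv 0 w]
      simp
    rw [h2, L.h_eq a ha v hv]
    have hbU := L.Ex_mem a ha v hv
    have h3 := cauchy_of_nonneg (g (L.Ex (a, v))) (hLC.g_symm _ hbU) (hLC.nonneg hbU)
      (L.vel 1 (a, v)) w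
    have h4 := L.speed a ha v hv 1 (by simp)
    rw [one_smul] at h4
    rw [h4] at h3
    calc _ ≤ _ := h3
      _ = _ := by ring
  have hK : ∀ r, 0 < r → r < L.ρ → IsCompact {b ∈ ball L a | 2 * L.h (a, b) ≤ r ^ 2} := by
    intro r hr0 hr
    convert L.isCompact_closedBall a ha r hr0.le hr using 1
    ext b
    constructor
    · rintro ⟨⟨v, hv, rfl⟩, hb⟩
      simp only at hb
      rw [L.h_eq a ha v hv] at hb
      refine ⟨v, ?_, rfl⟩
      change g a v v ≤ r ^ 2
      linarith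
    · rintro ⟨v, hv, rfl⟩
      have hv' : g a v v ≤ r ^ 2 := hv
      have hvρ : g a v v < L.ρ ^ 2 := by
        have : r ^ 2 < L.ρ ^ 2 := by gcongr
        linarith
      refine ⟨⟨v, hvρ, rfl⟩, ?_⟩
      change 2 * L.h (a, L.Ex (a, v)) ≤ r ^ 2
      rw [L.h_eq a ha v hvρ]
      linarith
  obtain ⟨h1, ⟨v, hv, hvy⟩, h3⟩ := lower_dist (x0 := x0) hG hO hOU haO (h := fun b => L.h (a, b))
    h0 hhnn hd hK hy
  refine ⟨v, hv, ?_, h1, ?_⟩
  · rw [← hvy] at h3
    simp only at h3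
    rw [L.h_eq a ha v hv] at h3
    convert h3 using 2
    ring
  · rw [← (chartAt E x0).left_inv h1, ← hvy]

/-- Upper bound along radial curves. -/
theorem dist_le_aux {a : E} (ha : a ∈ L.W) {v : E} (hv : g a v v < L.ρ ^ 2) :
    dist ((chartAt E x0).symm a) ((chartAt E x0).symm (L.Ex (a, v))) ≤ Real.sqrt (g a v v) := by
  have haU : a ∈ (chartAt E x0).target := L.W_sub ha
  have hnn := hLC.nonneg haU v
  have habs : ∀ t ∈ Icc (0:ℝ) 1, |t| ≤ 1 := fun t ht => abs_le.2 ⟨by linarith [ht.1], ht.2⟩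
  have hmem : ∀ t ∈ Icc (0:ℝ) 1, g a (t • v) (t • v) < L.ρ ^ 2 := by
    intro t ht
    simp only [map_smul, smul_apply, smul_eq_mul]
    have : t * (t * g a v v) ≤ g a v v := by
      have h1 : t * t ≤ 1 := by nlinarith [ht.1, ht.2]
      nlinarith
    linarith
  have hcd : ContDiffOn ℝ 1 (fun t : ℝ => L.Ex (a, t • v)) (Icc 0 1) := by
    intro t ht
    have h1 : ContDiffAt ℝ 1 L.Ex (a, t • v) := (L.Ex_smooth a ha (t • v) (hmem t ht)).of_le
      (by simp)
    have h2 : ContDiffAt ℝ 1 (fun t : ℝ => ((a, t • v) : E × E)) t := by fun_prop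
    exact (ContDiffAt.comp t h1 h2).contDiffWithinAt
  have := dist_le_of_speed (x0 := x0) hG (c := fun t : ℝ => L.Ex (a, t • v)) (s := 0) (t := 1)
    (σ := Real.sqrt (g a v v)) zero_le_one (Real.sqrt_nonneg _) hcd
    (fun t ht => L.Ex_mem a ha (t • v) (hmem t ht))
    (fun t ht => by
      have ht' := Ioo_subset_Icc_self ht
      rw [(L.hasDerivAt_Ex a ha v hv t (habs t ht')).deriv, L.speed a ha v hv t (habs t ht'),
        Real.sq_sqrt hnn])
  simpa [L.Ex_zero a ha] using this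

/-- **A4 (1)**: radial curves of length `< ρ` are minimising. -/
theorem dist_radial {a : E} (ha : a ∈ L.W) {v : E} (hv : g a v v < L.ρ ^ 2) :
    dist ((chartAt E x0).symm a) ((chartAt E x0).symm (L.Ex (a, v))) = Real.sqrt (g a v v) := by
  apply le_antisymm (dist_le_aux hG hLC L ha hv)
  have haU : a ∈ (chartAt E x0).target := L.W_sub ha
  have hlt : dist ((chartAt E x0).symm a) ((chartAt E x0).symm (L.Ex (a, v))) < L.ρ := by
    refine (dist_le_aux hG hLC L ha hv).trans_lt ?_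
    rw [Real.sqrt_lt' L.ρ_pos]
    exact hv
  obtain ⟨w, hw1, hw2, hw3, hw4⟩ := surj_aux hG hLC L ha hlt
  have h1 : L.Ex (a, v) = L.Ex (a, w) :=
    (chartAt E x0).symm.injOn (L.Ex_mem a ha v hv) (L.Ex_mem a ha w hw1) hw4
  rw [L.Ex_inj a ha v w hv hw1 h1]
  rw [← h1] at hw4
  have := L.Ex_inj a ha v w hv hw1 h1
  subst this
  exact hw2

/-- **A4 (2)**: every point at distance `< ρ` is reached by a radial curve. -/
theorem exists_radial {a : E} (ha : a ∈ L.W) {y : M}
    (hy : dist ((chartAt E x0).symm a) y < L.ρ) :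
    ∃ v : E, g a v v < L.ρ ^ 2 ∧ Real.sqrt (g a v v) = dist ((chartAt E x0).symm a) y ∧
      y ∈ (chartAt E x0).source ∧ y = (chartAt E x0).symm (L.Ex (a, v)) := by
  obtain ⟨w, hw1, hw2, hw3, hw4⟩ := surj_aux hG hLC L ha hy
  refine ⟨w, hw1, ?_, hw3, hw4⟩
  rw [hw4]
  exact (dist_radial hG hLC L ha hw1).symm

/-- **A4 (3)**: two-sided radial curves. -/
theorem dist_radial_two {a : E} (ha : a ∈ L.W') {v : E} (hv : g a v v < L.r' ^ 2) {s t : ℝ}
    (hs : |s| ≤ 1) (ht : |t| ≤ 1) :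
    dist ((chartAt E x0).symm (L.Ex (a, s • v))) ((chartAt E x0).symm (L.Ex (a, t • v))) =
      |s - t| * Real.sqrt (g a v v) := by
  have haW : a ∈ L.W := L.W'_sub ha
  have haU : a ∈ (chartAt E x0).target := L.W_sub haW
  have hnn := hLC.nonneg haU v
  have hr' := L.r'_pos
  have hρ := L.ρ_pos
  have hr'le := L.r'_le
  have hvρ : g a v v < L.ρ ^ 2 := by
    have : L.r' ^ 2 ≤ L.ρ ^ 2 := by
      apply pow_le_pow_left₀ hr'.le
      linarith
    linarith
  have hsv : g a (s • v) (s • v) < L.r' ^ 2 := by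
    simp only [map_smul, smul_apply, smul_eq_mul]
    have h1 : s * s ≤ 1 := by nlinarith [abs_le.1 hs, abs_mul_abs_self s, abs_nonneg s]
    nlinarith
  have hbW := L.Ex_mem_W a ha (s • v) hsv
  have hsp := L.speed a haW v hvρ s hs
  have hw : g (L.Ex (a, s • v)) ((t - s) • L.vel s (a, v)) ((t - s) • L.vel s (a, v)) =
      (t - s) ^ 2 * g a v v := by
    simp only [map_smul, smul_apply, smul_eq_mul]
    rw [hsp]
    ring
  have hwρ : g (L.Ex (a, s • v)) ((t - s) • L.vel s (a, v)) ((t - s) • L.vel s (a, v)) <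
      L.ρ ^ 2 := by
    rw [hw]
    have h1 : (t - s) ^ 2 ≤ 2 ^ 2 := by
      apply sq_le_sq'
      · linarith [(abs_le.1 hs).2, (abs_le.1 ht).1]
      · linarith [(abs_le.1 hs).1, (abs_le.1 ht).2]
    have h2 : (2 * L.r') ^ 2 ≤ L.ρ ^ 2 := pow_le_pow_left₀ (by positivity) hr'le 2
    nlinarith
  have := dist_radial hG hLC L hbW hwρ
  rw [L.seg a ha v hv s t hs ht, hw] at this
  rw [this, Real.sqrt_mul (sq_nonneg _), Real.sqrt_sq_eq_abs, abs_sub_comm]

/-- **A4 (4)**: the cost is the chart energy. -/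
theorem halfDistSq_eq {a : E} (ha : a ∈ L.W) {v : E} (hv : g a v v < L.ρ ^ 2) :
    halfDistSq ((chartAt E x0).symm a) ((chartAt E x0).symm (L.Ex (a, v))) =
      L.h (a, L.Ex (a, v)) := by
  have haU : a ∈ (chartAt E x0).target := L.W_sub ha
  have hnn := hLC.nonneg haU v
  unfold halfDistSq
  rw [dist_radial hG hLC L ha hv, L.h_eq a ha v hv, Real.sq_sqrt hnn]

omit hG in
/-- the open set of pairs `(a, Ex (a,v))`. -/
theorem isOpen_pairs : IsOpen ((fun z : E × E => (z.1, L.Ex z)) ''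
    {z : E × E | z.1 ∈ L.W ∧ g z.1 z.2 z.2 < L.ρ ^ 2}) := by
  refine L.isOpen_image {z : E × E | z.1 ∈ L.W ∧ g z.1 z.2 z.2 < L.ρ ^ 2} ?_ (fun z hz => hz)
  -- openness of the `g`-disc bundle
  have hopen : IsOpen (L.W ×ˢ (univ : Set E)) := L.isOpen_W.prod isOpen_univ
  have hc : ContinuousOn (fun z : E × E => g z.1 z.2 z.2) (L.W ×ˢ (univ : Set E)) := by
    have h1 : ContinuousOn (fun z : E × E => g z.1) (L.W ×ˢ (univ : Set E)) :=
      (hLC.g_smooth.continuousOn.mono L.W_sub).comp continuousOn_fst (fun z hz => hz.1)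
    exact (h1.clm_apply continuousOn_snd).clm_apply continuousOn_snd
  have := hc.isOpen_inter_preimage hopen (isOpen_Iio (a := L.ρ ^ 2))
  have hset : {z : E × E | z.1 ∈ L.W ∧ g z.1 z.2 z.2 < L.ρ ^ 2} =
      L.W ×ˢ (univ : Set E) ∩ (fun z : E × E => g z.1 z.2 z.2) ⁻¹' Iio (L.ρ ^ 2) := by
    ext z
    simp
  rw [hset]
  exact this

/-- the cost is the chart energy, on the open set of pairs in `M × M`. -/
theorem halfDistSq_eventuallyEq {a : E} (ha : a ∈ L.W) {v : E} (hv : g a v v < L.ρ ^ 2) :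
    (fun q : M × M => halfDistSq q.1 q.2) =ᶠ[𝓝 ((chartAt E x0).symm a,
      (chartAt E x0).symm (L.Ex (a, v)))]
      fun q => L.h (chartAt E x0 q.1, chartAt E x0 q.2) := by
  have haU : a ∈ (chartAt E x0).target := L.W_sub ha
  have hbU := L.Ex_mem a ha v hv
  set S := ((fun z : E × E => (z.1, L.Ex z)) ''
    {z : E × E | z.1 ∈ L.W ∧ g z.1 z.2 z.2 < L.ρ ^ 2}) with hS
  have hSo : IsOpen S := isOpen_pairs hLC L
  have h1 : ∀ᶠ q : M × M in 𝓝 ((chartAt E x0).symm a, (chartAt E x0).symm (L.Ex (a, v))),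
      q.1 ∈ (chartAt E x0).source ∧ q.2 ∈ (chartAt E x0).source := by
    apply Filter.Eventually.and
    · exact continuous_fst.continuousAt.eventually_mem
        ((chartAt E x0).open_source.mem_nhds ((chartAt E x0).map_target haU))
    · exact continuous_snd.continuousAt.eventually_mem
        ((chartAt E x0).open_source.mem_nhds ((chartAt E x0).map_target hbU))
  have h2 : ContinuousAt (fun q : M × M => (chartAt E x0 q.1, chartAt E x0 q.2))
      ((chartAt E x0).symm a, (chartAt E x0).symm (L.Ex (a, v))) := by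
    apply ContinuousAt.prodMk
    · exact ContinuousAt.comp (g := chartAt E x0)
        ((chartAt E x0).continuousAt ((chartAt E x0).map_target haU)) continuous_fst.continuousAt
    · exact ContinuousAt.comp (g := chartAt E x0)
        ((chartAt E x0).continuousAt ((chartAt E x0).map_target hbU)) continuous_snd.continuousAt
  have h3 : ∀ᶠ q : M × M in 𝓝 ((chartAt E x0).symm a, (chartAt E x0).symm (L.Ex (a, v))),
      (chartAt E x0 q.1, chartAt E x0 q.2) ∈ S := by
    apply h2.eventually_mem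
    apply hSo.mem_nhds
    simp only [(chartAt E x0).right_inv haU, (chartAt E x0).right_inv hbU]
    exact ⟨(a, v), ⟨ha, hv⟩, rfl⟩
  filter_upwards [h1, h3] with q hq1 hq3
  obtain ⟨⟨b, w⟩, ⟨hb, hw⟩, hbw⟩ := hq3
  simp only [Prod.mk.injEq] at hbw
  rw [← hbw.1, ← hbw.2]
  rw [← halfDistSq_eq hG hLC L hb hw]
  rw [hbw.2, hbw.1, (chartAt E x0).left_inv hq1.1, (chartAt E x0).left_inv hq1.2]

/-- **A4 (5)**: smoothness of the cost near the pairs reached by radial curves. -/
theorem contMDiffAt_halfDistSq [IsManifold 𝓘(ℝ, E) (⊤ : ℕ∞) M] {a : E} (ha : a ∈ L.W) {v : E}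
    (hv : g a v v < L.ρ ^ 2) :
    ContMDiffAt (𝓘(ℝ, E).prod 𝓘(ℝ, E)) 𝓘(ℝ) (⊤ : ℕ∞) (fun q : M × M => halfDistSq q.1 q.2)
      ((chartAt E x0).symm a, (chartAt E x0).symm (L.Ex (a, v))) := by
  have haU : a ∈ (chartAt E x0).target := L.W_sub ha
  have hbU := L.Ex_mem a ha v hv
  have heq := halfDistSq_eventuallyEq hG hLC L ha hv
  refine ContMDiffAt.congr_of_eventuallyEq ?_ heq
  have h1 : ∀ x : M, x ∈ (chartAt E x0).source →
      ContMDiffAt 𝓘(ℝ, E) 𝓘(ℝ, E) (⊤ : ℕ∞) (chartAt E x0) x := fun x hx =>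
    contMDiffOn_chart.contMDiffAt ((chartAt E x0).open_source.mem_nhds hx)
  have h2 : ContMDiffAt (𝓘(ℝ, E).prod 𝓘(ℝ, E)) (𝓘(ℝ, E).prod 𝓘(ℝ, E)) (⊤ : ℕ∞)
      (fun q : M × M => (chartAt E x0 q.1, chartAt E x0 q.2))
      ((chartAt E x0).symm a, (chartAt E x0).symm (L.Ex (a, v))) := by
    apply ContMDiffAt.prodMk
    · exact ContMDiffAt.comp _ (h1 _ ((chartAt E x0).map_target haU)) contMDiffAt_fst
    · exact ContMDiffAt.comp _ (h1 _ ((chartAt E x0).map_target hbU)) contMDiffAt_snd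
  have h3 : ContMDiffAt (𝓘(ℝ, E).prod 𝓘(ℝ, E)) 𝓘(ℝ) (⊤ : ℕ∞) L.h
      (chartAt E x0 ((chartAt E x0).symm a), chartAt E x0 ((chartAt E x0).symm (L.Ex (a, v)))) := by
    rw [(chartAt E x0).right_inv haU, (chartAt E x0).right_inv hbU]
    have := (L.h_smooth a ha v hv).contMDiffAt
    rw [modelWithCornersSelf_prod, ← chartedSpaceSelf_prod] at *
    exact this
  exact ContMDiffAt.comp (g := L.h) (f := fun q : M × M => (chartAt E x0 q.1, chartAt E x0 q.2))
    _ h3 h2

/-- **A4 (6)**: first variation of the cost at the base point along a chart curve. -/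
theorem hasDerivAt_cost {a : E} (ha : a ∈ L.W) {v : E} (hv : g a v v < L.ρ ^ 2) {c : ℝ → E}
    {ξ : E} {t : ℝ} (hc : HasDerivAt c ξ t) (hct : c t = a) :
    HasDerivAt (fun s => halfDistSq ((chartAt E x0).symm (c s))
      ((chartAt E x0).symm (L.Ex (a, v)))) (-(g a v ξ)) t := by
  have haU : a ∈ (chartAt E x0).target := L.W_sub ha
  have hbU := L.Ex_mem a ha v hv
  have hcont : Tendsto (fun s => ((chartAt E x0).symm (c s),
      (chartAt E x0).symm (L.Ex (a, v)))) (𝓝 t)
      (𝓝 ((chartAt E x0).symm a, (chartAt E x0).symm (L.Ex (a, v)))) := by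
    have h0 : ContinuousAt (fun s => (chartAt E x0).symm (c s)) t := by
      apply ContinuousAt.comp (g := (chartAt E x0).symm) _ hc.continuousAt
      rw [hct]
      exact (chartAt E x0).continuousAt_symm haU
    have h00 := h0.tendsto
    rw [hct] at h00
    exact h00.prodMk_nhds tendsto_const_nhds
  have h1 : ∀ᶠ s in 𝓝 t, halfDistSq ((chartAt E x0).symm (c s))
      ((chartAt E x0).symm (L.Ex (a, v))) =
      L.h (chartAt E x0 ((chartAt E x0).symm (c s)),
        chartAt E x0 ((chartAt E x0).symm (L.Ex (a, v)))) := by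
    exact hcont.eventually (halfDistSq_eventuallyEq hG hLC L ha hv)
  have h3 : ∀ᶠ s in 𝓝 t, c s ∈ (chartAt E x0).target := by
    apply hc.continuousAt.eventually_mem
    rw [hct]
    exact (chartAt E x0).open_target.mem_nhds haU
  have h4 : (fun s => halfDistSq ((chartAt E x0).symm (c s))
      ((chartAt E x0).symm (L.Ex (a, v)))) =ᶠ[𝓝 t] fun s => L.h (c s, L.Ex (a, v)) := by
    filter_upwards [h1, h3] with s hs1 hs3
    rw [hs1, (chartAt E x0).right_inv hs3, (chartAt E x0).right_inv hbU]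
  refine HasDerivAt.congr_of_eventuallyEq ?_ h4
  have h5 : DifferentiableAt ℝ L.h (a, L.Ex (a, v)) :=
    (L.h_smooth a ha v hv).differentiableAt (by simp)
  have h6 : HasDerivAt (fun s => (c s, L.Ex (a, v))) (ξ, (0 : E)) t :=
    hc.prodMk (hasDerivAt_const t _)
  have h7 : HasFDerivAt L.h (fderiv ℝ L.h (a, L.Ex (a, v))) (c t, L.Ex (a, v)) := by
    rw [hct]; exact h5.hasFDerivAt
  have h8 := h7.comp_hasDerivAt t h6
  rw [L.h_fderiv a ha v hv ξ 0, map_zero, zero_sub] at h8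
  exact h8

end

end Crest.Agent.R226.DistGeo549
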