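/-
R226 stream E1, main theorem (helper915): `CutFacts` + `DFacts` + `GoodAll` + (Q) weak `QQw` +
(W') `JMonoC` ⇒ `EStatement`, and the conclusion of S0350 under weak MTW given (Q) and (W').
-/
import Crest.Agent.R226.EGlue_915
import Crest.Agent.R226.GDInst_659
import Crest.Agent.R226.Engulf_964
import Crest.Agent.R226.EStep1P_700
import Crest.Agent.R226.Step2_892
import Crest.Agent.R226.CutNull_230
import Crest.Agent.R226.VolChartB_767
import Crest.Agent.R226.CutAsm_823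
import Crest.Agent.R226.Reduction_624

set_option autoImplicit false
set_option linter.unusedSectionVars false

open MeasureTheory Bundle Set Filter
open scoped Manifold ContDiff Bundle ENNReal Topology
open Crest.GeometryTopology.MTW

namespace Crest.Agent.R226.EMain915

open Crest.Agent.R226 Crest.Agent.R226.Kant624 Crest.Agent.R226.Reduction624
  Crest.Agent.R226.E1Shape964 Crest.Agent.R226.Dasm290

section Steps

variable {n : ℕ} {M : Type*} [MetricSpace M] [ChartedSpace (EuclideanSpace ℝ (Fin n)) M]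
  [IsManifold (𝓡 n) ∞ M]
  [RiemannianBundle (fun p : M => TangentSpace (𝓡 n) p)]
  [CompactSpace M] {G : GeoData n M}

/-- local ⇒ global in the form used by `Step2_892`. -/
theorem locGlob (hC : CutFacts G) (hD : DFacts G) (hg : GoodAll G) {u : M → ℝ} (hu : CConv u) :
    Step2_892.LocGlob u := by
  intro x y hmin
  exact mem_cSub_of_localMin hC hD hg hu hmin

theorem qqc_of_QQw {τ : ℝ} (hQ : QQw G τ) : Step2_892.QQc G τ := by
  intro x x' p₀ h₀ p₁ h₁ t ht ht'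
  exact hQ x x' p₀ h₀ p₁ h₁ t ht ht'

theorem dasm (hg : GoodAll G) (xh x' : M) (p₀ : TangentSpace (𝓡 n) xh) (h₀ : p₀ ∈ G.K xh)
    (p₁ : TangentSpace (𝓡 n) xh) (h₁ : p₁ ∈ G.K xh) (t : ℝ) (ht : 0 ≤ t) (ht' : t ≤ 1) :
    Step2_892.ff G xh x' ((1 - t) • p₀ + t • p₁) ≤
      max (Step2_892.ff G xh x' p₀) (Step2_892.ff G xh x' p₁) :=
  quasi hg h₀ h₁ (by linarith : (0 : ℝ) ≤ 1 - t) ht (by ring) x'

variable [MeasurableSpace M] [BorelSpace M]

/-- **E1.3**: Step 2 in the shape of `E1Shape_964`. -/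
theorem step2P (hC : CutFacts G) (hD : DFacts G) (hg : GoodAll G) {τ : ℝ} (hτ0 : 0 < τ)
    (hτ1 : τ ≤ 1) (hQ : QQw G τ) {vol : Measure M} {cW : ℝ} (hcW : 0 < cW)
    (hJ : JMonoC G vol cW) (B : ℝ) :
    ∃ CB : ℝ, 0 < CB ∧ ∀ u : M → ℝ, CConv u → Step2P G vol B CB u := by
  have hJ' : Step2_892.JMonoc G vol (ENNReal.ofReal cW) := by
    intro x A hA hAK p₁ h₁ t ht ht'
    exact hJ x A hAK hA p₁ h₁ t ht ht'
  have hKc : ∀ x, Convex ℝ (G.K x) := fun x => convex_K hg x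
  obtain ⟨c, hc, H⟩ := Step2_892.step2 G hcW hJ' hτ0 hτ1 (qqc_of_QQw hQ) hKc B
  refine ⟨c⁻¹, by positivity, ?_⟩
  intro u hu y₀ h hh xh hxh
  refine ⟨?_, ?_⟩
  · exact Step2_892.convex_QB G (S := Sec u h y₀) (y₀ := y₀) (xh := xh) (b := B * h) (hKc xh)
      (fun x' p₀ h₀ p₁ h₁ t ht ht' => dasm hg xh x' p₀ h₀ p₁ h₁ t ht ht')
  · have h1 := H u hu (locGlob hC hD hg hu) y₀ xh h hh hxh
    have h2 : ENNReal.ofReal c * vol (SoB u h y₀ xh B) ≤ vol (cImg u (Sec u h y₀)) := h1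
    calc vol (SoB u h y₀ xh B)
        = ENNReal.ofReal c⁻¹ * (ENNReal.ofReal c * vol (SoB u h y₀ xh B)) := by
          rw [← mul_assoc, ← ENNReal.ofReal_mul (by positivity), inv_mul_cancel₀ hc.ne',
            ENNReal.ofReal_one, one_mul]
      _ ≤ ENNReal.ofReal c⁻¹ * vol (cImg u (Sec u h y₀)) := by gcongr

end Steps

section Main

variable {n : ℕ} {M : Type*} [MetricSpace M] [ChartedSpace (EuclideanSpace ℝ (Fin n)) M]
  [IsManifold (𝓡 n) ∞ M]
  [RiemannianBundle (fun p : M => TangentSpace (𝓡 n) p)]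
  [IsContMDiffRiemannianBundle (𝓡 n) ∞ (EuclideanSpace ℝ (Fin n))
    (fun p : M => TangentSpace (𝓡 n) p)]
  [IsRiemannianManifold (𝓡 n) M] [CompactSpace M] [MeasurableSpace M] [BorelSpace M]

/-- **E1, Theorem 1**: uniform engulfing for the pinched class. -/
theorem engulf_main (G : GeoData n M) (hC : CutFacts G) (hD : DFacts G) (hg : GoodAll G)
    {τ : ℝ} (hτ0 : 0 < τ) (hτ1 : τ < 1) (hQ : QQw G τ) {cW : ℝ} (hcW : 0 < cW)
    (hJ : JMonoC G (Measure.hausdorffMeasure (n : ℝ) : Measure M) cW) {m : ℝ} (hm : 0 < m) :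
    ∃ K0 : ℝ, 0 < K0 ∧ ∀ u : M → ℝ, CConv u →
      AlexPinch (Measure.hausdorffMeasure (n : ℝ) : Measure M) u m → EngulfP K0 u := by
  have := VolChart767.isFiniteMeasure (n := n) (M := M)
  have := VolChart767.isOpenPosMeasure (n := n) (M := M)
  refine Engulf964.engulf (G := G) (Measure.hausdorffMeasure (n : ℝ) : Measure M) hτ0 hτ1 hQ hcW hJ
    (fun x => CutNull230.ae_unique_preimage G x) ?_ ?_ hm
  · obtain ⟨C1, _, h1⟩ := EStep1P700.step1P hC hg hτ0 hQ hcW.le hJ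
    exact ⟨C1, cW ^ 2, by positivity, h1⟩
  · intro B _
    exact step2P hC hD hg hτ0 hτ1.le hQ hcW hJ B

/-- **E1, main theorem**: (Q) and (W') imply `EStatement`. -/
theorem eStatement_main (hn : 0 < n) [Nonempty M] (G : GeoData n M) (hC : CutFacts G)
    (hD : DFacts G) (hg : GoodAll G)
    {τ : ℝ} (hτ0 : 0 < τ) (hτ1 : τ < 1) (hQ : QQw G τ) {cW : ℝ} (hcW : 0 < cW)
    (hJ : JMonoC G (Measure.hausdorffMeasure (n : ℝ) : Measure M) cW) {m : ℝ} (hm : 0 < m) :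
    EStatement (Measure.hausdorffMeasure (n : ℝ) : Measure M) m := by
  refine EGlue915.estatement_of_GD _ m ?_ ?_ (GDInst659.exists_GD (G := G) hC hD hg hn)
  · obtain ⟨K0, _, H⟩ := engulf_main G hC hD hg hτ0 hτ1 hQ hcW hJ hm
    exact ⟨K0, H⟩
  · intro K0 u hu hE x
    exact Thm2_887.cSub_subsingleton hC hu (fun x xh y y₀ => hE x xh y y₀) x

/-- The same with engulfing as the hypothesis (for other proofs of Theorem 1). -/
theorem eStatement_of_engulf (hn : 0 < n) [Nonempty M] (G : GeoData n M) (hC : CutFacts G)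
    (hD : DFacts G) (hg : GoodAll G) {m : ℝ}
    (hE : ∃ K0 : ℝ, ∀ u : M → ℝ, CConv u →
      AlexPinch (Measure.hausdorffMeasure (n : ℝ) : Measure M) u m → EngulfP K0 u) :
    EStatement (Measure.hausdorffMeasure (n : ℝ) : Measure M) m := by
  refine EGlue915.estatement_of_GD _ m hE ?_ (GDInst659.exists_GD (G := G) hC hD hg hn)
  intro K0 u hu hE x
  exact Thm2_887.cSub_subsingleton hC hu (fun x xh y y₀ => hE x xh y y₀) x

/-- F3 for `μH[n]`, in the form of `Reduction624`. -/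
theorem aeUnique (G : GeoData n M) :
    AEUnique (Measure.hausdorffMeasure (n : ℝ) : Measure M) := by
  intro u hu
  exact DiffAE225.ae_subsingleton_cSub G hu

/-- **S0350 from engulfing**: the conclusion of S0350 if, under weak MTW, the engulfing property
holds uniformly for the pinched class. -/
theorem s0350_of_engulf (hn : 2 ≤ n) [Nonempty M] (hMTW : SatisfiesWeakMTW M n)
    (hE : ∀ G : GeoData n M, CutFacts G → MTWFacts G → DFacts G → GoodAll G →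
      ∀ m : ℝ, 0 < m → ∃ K0 : ℝ, ∀ u : M → ℝ, CConv u →
        AlexPinch (Measure.hausdorffMeasure (n : ℝ) : Measure M) u m → EngulfP K0 u)
    (lam Lam : ℝ) (hlam : 0 < lam) (hle : lam ≤ Lam) :
    ∃ α : ℝ, 0 < α ∧ α ≤ 1 ∧ ∃ C : ℝ, ∀ ρ₀ ρ₁ : M → ℝ, Measurable ρ₀ → Measurable ρ₁ →
      (∀ᵐ x ∂(Measure.hausdorffMeasure (n : ℝ) : Measure M),
        lam ≤ ρ₀ x ∧ ρ₀ x ≤ Lam ∧ lam ≤ ρ₁ x ∧ ρ₁ x ≤ Lam) →
      (∫⁻ x, ENNReal.ofReal (ρ₀ x) ∂(Measure.hausdorffMeasure (n : ℝ) : Measure M)) = 1 →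
      (∫⁻ x, ENNReal.ofReal (ρ₁ x) ∂(Measure.hausdorffMeasure (n : ℝ) : Measure M)) = 1 →
      ∀ T : M → M,
        IsMongeOptimal ((Measure.hausdorffMeasure (n : ℝ)).withDensity fun x =>
            ENNReal.ofReal (ρ₀ x))
          ((Measure.hausdorffMeasure (n : ℝ)).withDensity fun x => ENNReal.ofReal (ρ₁ x)) T →
        ∃ Th : M ≃ₜ M,
          (∀ᵐ x ∂((Measure.hausdorffMeasure (n : ℝ)).withDensity fun x =>
            ENNReal.ofReal (ρ₀ x)), T x = Th x) ∧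
          (∀ x x' : M, dist (Th x) (Th x') ≤ C * dist x x' ^ α) ∧
          (∀ y y' : M, dist (Th.symm y) (Th.symm y') ≤ C * dist y y' ^ α) := by
  obtain ⟨G⟩ := CutAsm823.nonempty_geoData n M
  have hC := CutAsm823.cutFacts G
  have hD := CutAsm823.dFacts G
  have hg : GoodAll G := fun u hu => CutAsm823.good_one G hMTW u hu
  have hm : 0 < lam / Lam := div_pos hlam (hlam.trans_le hle)
  exact uniform_biHolder (Measure.hausdorffMeasure (n : ℝ) : Measure M) hlam hle (aeUnique G)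
    (eStatement_of_engulf (by omega) G hC hD hg
      (hE G hC (CutAsm823.mtwFacts G hMTW) hD hg _ hm))

/-- **S0350 from (Q) and (W')**. -/
theorem s0350_of_QW (hn : 2 ≤ n) [Nonempty M] (hMTW : SatisfiesWeakMTW M n)
    (hQW : ∀ G : GeoData n M, CutFacts G → MTWFacts G → DFacts G → GoodAll G →
      (∃ τ : ℝ, 0 < τ ∧ τ < 1 ∧ QQw G τ) ∧
      (∃ cW : ℝ, 0 < cW ∧ JMonoC G (Measure.hausdorffMeasure (n : ℝ) : Measure M) cW))
    (lam Lam : ℝ) (hlam : 0 < lam) (hle : lam ≤ Lam) :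
    ∃ α : ℝ, 0 < α ∧ α ≤ 1 ∧ ∃ C : ℝ, ∀ ρ₀ ρ₁ : M → ℝ, Measurable ρ₀ → Measurable ρ₁ →
      (∀ᵐ x ∂(Measure.hausdorffMeasure (n : ℝ) : Measure M),
        lam ≤ ρ₀ x ∧ ρ₀ x ≤ Lam ∧ lam ≤ ρ₁ x ∧ ρ₁ x ≤ Lam) →
      (∫⁻ x, ENNReal.ofReal (ρ₀ x) ∂(Measure.hausdorffMeasure (n : ℝ) : Measure M)) = 1 →
      (∫⁻ x, ENNReal.ofReal (ρ₁ x) ∂(Measure.hausdorffMeasure (n : ℝ) : Measure M)) = 1 →
      ∀ T : M → M,
        IsMongeOptimal ((Measure.hausdorffMeasure (n : ℝ)).withDensity fun x =>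
            ENNReal.ofReal (ρ₀ x))
          ((Measure.hausdorffMeasure (n : ℝ)).withDensity fun x => ENNReal.ofReal (ρ₁ x)) T →
        ∃ Th : M ≃ₜ M,
          (∀ᵐ x ∂((Measure.hausdorffMeasure (n : ℝ)).withDensity fun x =>
            ENNReal.ofReal (ρ₀ x)), T x = Th x) ∧
          (∀ x x' : M, dist (Th x) (Th x') ≤ C * dist x x' ^ α) ∧
          (∀ y y' : M, dist (Th.symm y) (Th.symm y') ≤ C * dist y y' ^ α) := by
  refine s0350_of_engulf hn hMTW ?_ lam Lam hlam hle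
  intro G hC hM hD hg m hm
  obtain ⟨⟨τ, hτ0, hτ1, hQ⟩, ⟨cW, hcW, hJ⟩⟩ := hQW G hC hM hD hg
  obtain ⟨K0, _, H⟩ := engulf_main G hC hD hg hτ0 hτ1 hQ hcW hJ hm
  exact ⟨K0, H⟩

end Main

end Crest.Agent.R226.EMain915
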