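/-
R226 (helper915): Theorem 1 of doc 848 (engulfing) from weak (Q) and (W) OFF THE FOOT only
(pointwise Jacobian, doc 1281), and the conclusion of S0350.
-/
import Crest.Agent.R226.WOff_915
import Crest.Agent.R226.EMain_915

set_option autoImplicit false
set_option linter.unusedSectionVars false

open MeasureTheory Bundle Set Filter
open scoped Manifold ContDiff Bundle ENNReal Topology
open Crest.GeometryTopology.MTW

namespace Crest.Agent.R226.EngW915

open Crest.Agent.R226 Crest.Agent.R226.Kant624 Crest.Agent.R226.E1Shape964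
  Crest.Agent.R226.Dasm290 Crest.Agent.R226.WOff915 Crest.Agent.R226.Engulf964

section Geo

variable {n : ℕ} {M : Type*} [MetricSpace M] [ChartedSpace (EuclideanSpace ℝ (Fin n)) M]
  [IsManifold (𝓡 n) ∞ M]
  [RiemannianBundle (fun p : M => TangentSpace (𝓡 n) p)]
  [MeasurableSpace M]

/-- (W) off the foot for all base points, with uniform constants. -/
def WOffAt (G : GeoData n M) (vol : Measure M) (C c : ℝ) (x : M) : Prop :=
  ∃ (_ : MeasurableSpace (TangentSpace (𝓡 n) x)) (_ : BorelSpace (TangentSpace (𝓡 n) x))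
    (μ : Measure (TangentSpace (𝓡 n) x)) (_ : μ.IsAddHaarMeasure)
    (J : TangentSpace (𝓡 n) x → ℝ≥0∞), WArea (G.K x) (G.ex x) vol μ J C c

/-- volume contraction for convex sets. -/
def JConv (G : GeoData n M) (vol : Measure M) : Prop :=
  ∀ a : ℝ, 0 < a → ∃ c : ℝ, 0 < c ∧ ∀ x : M, ∀ Q ⊆ G.K x, Convex ℝ Q → IsCompact Q →
    ∀ p₁ ∈ Q, ENNReal.ofReal c * vol (G.ex x '' Q) ≤ vol (G.ex x '' (con p₁ a '' Q))

theorem jConv_of_wOff {G : GeoData n M} {vol : Measure M} {C c : ℝ} (hC : 0 < C) (hc : 0 < c)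
    (hW : ∀ x, WOffAt G vol C c x) : JConv G vol := by
  intro a ha
  obtain ⟨c', hc', H⟩ := exists_contract (d := n) hC hc ha
  refine ⟨c', hc', ?_⟩
  intro x Q hQK hQ hQc p₁ h₁
  obtain ⟨mE, hBE, μ, hμ, J, hW⟩ := hW x
  have hfd : FiniteDimensional ℝ (TangentSpace (𝓡 n) x) := CC0227.finiteDim x
  exact H (μ := μ) (EStep1700.finrank_tangent x) hW Q hQK hQ hQc p₁ h₁

end Geo

section Steps

variable {n : ℕ} {M : Type*} [MetricSpace M] [ChartedSpace (EuclideanSpace ℝ (Fin n)) M]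
  [IsManifold (𝓡 n) ∞ M]
  [RiemannianBundle (fun p : M => TangentSpace (𝓡 n) p)]
  [CompactSpace M] [MeasurableSpace M] [BorelSpace M] {G : GeoData n M}

/-- Step 1 with `JConv`. -/
theorem step1P_conv (hC : CutFacts G)
    (hg : GoodAll G) {τ : ℝ} (hτ : 0 < τ) (hQ : QQw G τ) {vol : Measure M} (hJ : JConv G vol) :
    ∃ C1 c1 : ℝ, 0 < c1 ∧ ∀ u : M → ℝ, CConv u → Step1P vol C1 c1 u := by
  obtain ⟨C₁, hC₁, H⟩ := EStep1700.step1 n (t₀ := min τ (1 / 2)) (lt_min hτ (by norm_num))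
    (lt_of_le_of_lt (min_le_right _ _) (by norm_num))
  obtain ⟨c1, hc1, HJ⟩ := hJ (1 / 4) (by norm_num)
  refine ⟨C₁, c1, hc1, ?_⟩
  intro u hu y₀ h hh
  have hWQ : ∀ y₀ y : M, CentGeo700.WQ (EStep1700.fq G y₀ y) (G.K y₀) (min τ (1 / 2)) := by
    intro y₀ y p₀ h₀ p₁ h₁ t ht ht'
    exact hQ y₀ y p₀ h₀ p₁ h₁ t ht (ht'.trans (min_le_left _ _))
  obtain ⟨c, hc, Hc⟩ := H G hC hg hWQ u hu y₀ h hh.le
  have huc := CConv.continuous hu
  have hsub : secX G u y₀ h ⊆ G.K y₀ := fun q hq => hq.1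
  have hcomp := EStep1700.isCompact_secX hC huc y₀ h
  have hconv := convex_secX hg hu y₀ h
  have hex : Continuous (fun q : TangentSpace (𝓡 n) y₀ => G.ex y₀ q) :=
    G.smooth.continuous.comp (FiberBundle.continuous_totalSpaceMk (EuclideanSpace ℝ (Fin n))
      (fun p : M => TangentSpace (𝓡 n) p) y₀)
  have hq : Continuous (EStep1700.quarter c : TangentSpace (𝓡 n) y₀ → TangentSpace (𝓡 n) y₀) := by
    unfold EStep1700.quarter; fun_prop
  have hqC : ∀ z ∈ secX G u y₀ h, EStep1700.quarter c z ∈ secX G u y₀ h := by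
    intro z hz
    have := hconv hc hz (a := 3 / 4) (b := 1 / 4) (by norm_num) (by norm_num) (by norm_num)
    convert this using 1
    unfold EStep1700.quarter
    module
  refine ⟨G.ex y₀ '' (EStep1700.quarter c '' (secX G u y₀ h)), (hcomp.image hq).image hex, ?_, ?_,
    ?_⟩
  · rw [← EStep1P700.image_secX G]
    rintro _ ⟨_, ⟨z, hz, rfl⟩, rfl⟩
    exact ⟨_, hqC z hz, rfl⟩
  · rw [← EStep1P700.image_secX G]
    exact HJ y₀ _ hsub hconv hcomp c hc
  · rintro _ ⟨_, ⟨z, hz, rfl⟩, rfl⟩ y hy x hx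
    rw [← EStep1P700.image_secX G] at hx
    obtain ⟨q, hq, rfl⟩ := hx
    exact Hc z hz y hy q hq

/-- Step 2 with `JConv`. -/
theorem step2P_conv (hC : CutFacts G) (hD : DFacts G) (hg : GoodAll G) {τ : ℝ} (hτ0 : 0 < τ)
    (hτ1 : τ ≤ 1) (hQ : QQw G τ) {vol : Measure M} (hJ : JConv G vol) (B : ℝ) (hB : 0 ≤ B) :
    ∃ CB : ℝ, 0 < CB ∧ ∀ u : M → ℝ, CConv u → Step2P G vol B CB u := by
  have hKc : ∀ x, Convex ℝ (G.K x) := fun x => convex_K hg x
  obtain ⟨k, hk⟩ : ∃ k : ℕ, B / 2 ^ k ≤ 1 / 4 := by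
    obtain ⟨k, hk⟩ := pow_unbounded_of_one_lt (4 * B) (by norm_num : (1 : ℝ) < 2)
    refine ⟨k, ?_⟩
    rw [div_le_iff₀ (by positivity)]
    linarith
  obtain ⟨c, hc, H⟩ := hJ (τ ^ k) (by positivity)
  refine ⟨c⁻¹, by positivity, ?_⟩
  intro u hu y₀ h hh xh hxh
  have hconvQ : Convex ℝ (Step2_892.QB G (Sec u h y₀) y₀ xh (B * h)) :=
    Step2_892.convex_QB G (hKc xh)
      (fun x' p₀ h₀ p₁ h₁ t ht ht' => EMain915.dasm hg xh x' p₀ h₀ p₁ h₁ t ht ht')
  refine ⟨hconvQ, ?_⟩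
  obtain ⟨p₀, hp₀, hn₀⟩ := G.surj xh y₀
  have hp₀K : p₀ ∈ G.K xh := by
    show dist xh (G.ex xh p₀) = ‖p₀‖
    rw [hp₀, hn₀]
  have hp₀Q : p₀ ∈ Step2_892.QB G (Sec u h y₀) y₀ xh (B * h) := by
    refine ⟨hp₀K, ?_⟩
    rw [hp₀]
    exact Step2_892.mem_So_self (by positivity)
  have h1 := H xh _ (fun p hp => hp.1) hconvQ
    (Step2_892.isCompact_QB G (Sec u h y₀) y₀ xh (B * h)) p₀ hp₀Q
  rw [Step2_892.ex_image_QB] at h1
  have h3 : G.ex xh '' (con p₀ (τ ^ k) '' Step2_892.QB G (Sec u h y₀) y₀ xh (B * h)) ⊆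
      Step2_892.So (Sec u h y₀) y₀ xh (h / 4) := by
    rintro _ ⟨_, ⟨p, hp, rfl⟩, rfl⟩
    have h4 := Step2_892.contract_QB_pow G hτ0.le hτ1 (EMain915.qqc_of_QQw hQ)
      (by positivity) (hKc xh) hp₀K hp₀ hp k
    have e1 : con p₀ (τ ^ k) p = Step2_892.hom (τ ^ k) p₀ p := by
      unfold con Step2_892.hom; module
    rw [e1]
    refine Step2_892.So_mono ?_ h4.2
    rw [mul_div_right_comm]
    nlinarith
  have h5 : ENNReal.ofReal c * vol (SoB u h y₀ xh B) ≤ vol (cImg u (Sec u h y₀)) := by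
    calc ENNReal.ofReal c * vol (SoB u h y₀ xh B)
        ≤ vol (G.ex xh '' (con p₀ (τ ^ k) '' Step2_892.QB G (Sec u h y₀) y₀ xh (B * h))) := h1
      _ ≤ vol (Step2_892.So (Sec u h y₀) y₀ xh (h / 4)) := measure_mono h3
      _ ≤ vol (cImg u (Sec u h y₀)) :=
          measure_mono (Step2_892.So_quarter_subset hu (EMain915.locGlob hC hD hg hu) hh hxh)
  calc vol (SoB u h y₀ xh B)
      = ENNReal.ofReal c⁻¹ * (ENNReal.ofReal c * vol (SoB u h y₀ xh B)) := by
        rw [← mul_assoc, ← ENNReal.ofReal_mul (by positivity), inv_mul_cancel₀ hc.ne',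
          ENNReal.ofReal_one, one_mul]
    _ ≤ ENNReal.ofReal c⁻¹ * vol (cImg u (Sec u h y₀)) := by gcongr

end Steps

section Eng

variable {n : ℕ} {M : Type*} [MetricSpace M] [ChartedSpace (EuclideanSpace ℝ (Fin n)) M]
  [IsManifold (𝓡 n) ∞ M]
  [RiemannianBundle (fun p : M => TangentSpace (𝓡 n) p)]
  [IsContMDiffRiemannianBundle (𝓡 n) ∞ (EuclideanSpace ℝ (Fin n))
    (fun p : M => TangentSpace (𝓡 n) p)]
  [CompactSpace M] [MeasurableSpace M] [BorelSpace M]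
  {G : GeoData n M}

/-- Theorem 1 for one potential, from Steps 1, 2 and (W) off the foot. -/
theorem engulf_of_steps_woff (vol : Measure M) [IsFiniteMeasure vol] [vol.IsOpenPosMeasure]
    {τ : ℝ} (hτ0 : 0 < τ) (hτ1 : τ < 1) (hQ : QQw G τ)
    {C0 c0 : ℝ} (hC0 : 0 < C0) (hc0 : 0 < c0) (hW : ∀ x, WOffAt G vol C0 c0 x)
    {C1 c1 m B CB : ℝ} (hC1 : 0 ≤ C1) (hc1 : 0 < c1) (hm : 0 < m) (hCB : 0 < CB)
    (hB1 : 2 * C1 ≤ B) (hB2 : 3 / 2 ≤ B)
    {k : ℕ} (hk1 : 1 ≤ k) (hk : (1 - τ) ^ k ≤ (1 / 2) ^ n /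
      (2 * (c0⁻¹ * (4 ^ n + 2 ^ n) * C0 ^ 2 * (CB / (m * c1 * m)))))
    {u : M → ℝ} (hu : CConv u) (hP : AlexPinch vol u m)
    (h1 : Step1P vol C1 c1 u) (h2 : Step2P G vol B CB u) :
    EngulfP (2 + 2 ^ (k + 3) * C1) u := by
  intro x xh y y0
  have hcont := CConv.continuous hu
  -- it is enough to treat `h > 0` above the maximum
  have main : ∀ h : ℝ, 0 < h → Dd u x y0 ≤ h → Dd u xh y0 ≤ h → Dd u xh y ≤ h →
      Dd u x y ≤ (2 + 2 ^ (k + 3) * C1) * h := by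
    intro h hh a1 a2 a3
    have hh' : 0 < 2 * h := by linarith
    obtain ⟨S', hS'c, hS'S, hS'v, hS'⟩ := h1 y0 (2 * h) hh'
    obtain ⟨hconv, hvolSo⟩ := h2 y0 (2 * h) hh' xh (by linarith)
    set S : Set M := Sec u (2 * h) y0 with hSdef
    set Yc : Set M := cImg u S' with hYc
    have hxhS : xh ∈ S := by show Dd u xh y0 ≤ 2 * h; linarith
    have hxS : x ∈ S := by show Dd u x y0 ≤ 2 * h; linarith
    have hYcomp : IsCompact Yc := isCompact_cImg hu hS'c
    have hexc := continuous_exx G xh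
    -- the sets in the tangent space
    set P : Set (TangentSpace (𝓡 n) xh) := {p | p ∈ G.K xh ∧ G.ex xh p ∈ Yc} with hPdef
    set Q : Set (TangentSpace (𝓡 n) xh) :=
      {p | p ∈ G.K xh ∧ G.ex xh p ∈ SoB u (2 * h) y0 xh B} with hQdef
    have himg : ∀ Z : Set M, G.ex xh '' {p | p ∈ G.K xh ∧ G.ex xh p ∈ Z} = Z := by
      intro Z
      ext z
      constructor
      · rintro ⟨p, hp, rfl⟩; exact hp.2
      · intro hz
        obtain ⟨v, hv, hn⟩ := G.surj xh z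
        refine ⟨v, ⟨?_, ?_⟩, hv⟩
        · show dist xh (G.ex xh v) = ‖v‖
          rw [hv, hn]
        · rw [hv]; exact hz
    have hPimg : G.ex xh '' P = Yc := himg Yc
    have hQimg : G.ex xh '' Q = SoB u (2 * h) y0 xh B := himg _
    have hPcomp : IsCompact P :=
      (CutTop478.isCompact_K G xh).inter_right (hYcomp.isClosed.preimage hexc)
    -- bound of `F_y` on `Yc`
    have hF : ∀ y' ∈ Yc, ∀ a ∈ S, ∀ b ∈ S, Fd y0 y' a - Fd y0 y' b ≤ 2 * C1 * (2 * h) := by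
      intro y' hy' a ha b hb
      simp only [hYc, cImg, mem_iUnion, exists_prop] at hy'
      obtain ⟨x', hx', hyx'⟩ := hy'
      have b1 := hS' x' hx' y' hyx' a ha
      have b2 := hS' x' hx' y' hyx' b hb
      rw [abs_le] at b1 b2
      linarith [b1.2, b2.1]
    have hPQ : P ⊆ Q := by
      rintro p ⟨hpK, hpY⟩
      refine ⟨hpK, fun a ha => ?_⟩
      have b1 := hF _ hpY a ha xh hxhS
      have b2 : 2 * C1 * (2 * h) ≤ B * (2 * h) := mul_le_mul_of_nonneg_right hB1 hh'.le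
      linarith
    -- the function `ν`
    set ν : M → ℝ := fun y' => Fd y0 y' xh - Fd y0 y' x with hν
    have hνC : ∀ p ∈ P, |ν (G.ex xh p)| ≤ 2 * C1 * (2 * h) := by
      rintro p ⟨hpK, hpY⟩
      rw [abs_le]
      constructor
      · have := hF _ hpY x hxS xh hxhS
        simp only [hν]; linarith
      · have := hF _ hpY xh hxhS x hxS
        simp only [hν]; linarith
    have hνf : ∀ p ∈ G.K xh, ν (G.ex xh p) =
        (halfDistSq xh y0 - halfDistSq x y0) - (‖p‖ ^ 2 / 2 - halfDistSq x (G.ex xh p)) := by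
      intro p hp
      have hp' : dist xh (G.ex xh p) = ‖p‖ := hp
      have e1 : halfDistSq xh (G.ex xh p) = ‖p‖ ^ 2 / 2 := by unfold halfDistSq; rw [hp']
      simp only [hν, Fd]
      rw [e1]; ring
    have hqq : ∀ p0 ∈ Q, ∀ p1 ∈ Q, ∀ t : ℝ, 0 ≤ t → t ≤ τ →
        ν (G.ex xh p0) - max (ν (G.ex xh p0) - ν (G.ex xh p1)) 0 / 2 ≤
          ν (G.ex xh ((1 - t) • p0 + t • p1)) := by
      intro p0 hp0 p1 hp1 t ht0 ht1
      have c1 := hQ xh x p0 hp0.1 p1 hp1.1 t ht0 ht1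
      have hmem : (1 - t) • p0 + t • p1 ∈ Q :=
        hconv hp0 hp1 (by linarith) ht0 (by ring)
      rw [hνf _ hp0.1, hνf _ hp1.1, hνf _ hmem.1]
      have e2 : (halfDistSq xh y0 - halfDistSq x y0) -
          (‖p0‖ ^ 2 / 2 - halfDistSq x (G.ex xh p0)) -
          ((halfDistSq xh y0 - halfDistSq x y0) -
          (‖p1‖ ^ 2 / 2 - halfDistSq x (G.ex xh p1))) =
          (‖p1‖ ^ 2 / 2 - halfDistSq x (G.ex xh p1)) -
          (‖p0‖ ^ 2 / 2 - halfDistSq x (G.ex xh p0)) := by ring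
      rw [e2]
      linarith
    -- the vector of `y`
    obtain ⟨pL, hpLy, hpLn⟩ := G.surj xh y
    have hpLK : pL ∈ G.K xh := by
      show dist xh (G.ex xh pL) = ‖pL‖
      rw [hpLy, hpLn]
    have hpLQ : pL ∈ Q := by
      refine ⟨hpLK, ?_⟩
      rw [hpLy]
      intro a ha
      have b1 : Dd u a y0 ≤ 2 * h := ha
      have b2 := Dd_nonneg hu a y
      have b3 := Dd_nonneg hu xh y0
      have e3 : Fd y0 y a - Fd y0 y xh = Dd u a y0 - Dd u a y - Dd u xh y0 + Dd u xh y := by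
        unfold Fd Dd; ring
      rw [e3]
      nlinarith
    -- volumes
    have hvS : 0 < vol S := Sec_pos vol hu hh' y0
    have hvS' : 0 < vol S' := by
      refine lt_of_lt_of_le ?_ hS'v
      exact ENNReal.mul_pos (by simpa using hc1) hvS.ne'
    have hSm : MeasurableSet S := (isClosed_Sec hu _ _).measurableSet
    have hS'm : MeasurableSet S' := hS'c.isClosed.measurableSet
    have p1 : ENNReal.ofReal m * vol S' ≤ vol Yc := (hP S' hS'm).1
    have p2 : ENNReal.ofReal m * vol (cImg u S) ≤ vol S := (hP S hSm).2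
    have hYpos : vol Yc ≠ 0 := by
      refine (lt_of_lt_of_le ?_ p1).ne'
      exact ENNReal.mul_pos (by simpa using hm) hvS'.ne'
    have hYfin : vol Yc ≠ ⊤ := measure_ne_top vol Yc
    have p3 : ENNReal.ofReal (m * c1 * m) * vol (cImg u S) ≤ vol Yc := by
      calc ENNReal.ofReal (m * c1 * m) * vol (cImg u S)
          = ENNReal.ofReal m * (ENNReal.ofReal c1 * (ENNReal.ofReal m * vol (cImg u S))) := by
            rw [ENNReal.ofReal_mul (by positivity), ENNReal.ofReal_mul hm.le]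
            ring
        _ ≤ ENNReal.ofReal m * (ENNReal.ofReal c1 * vol S) := by gcongr
        _ ≤ ENNReal.ofReal m * vol S' := by gcongr
        _ ≤ vol Yc := p1
    have hmm : 0 < m * c1 * m := by positivity
    have hvol : vol (G.ex xh '' Q) ≤ ENNReal.ofReal (CB / (m * c1 * m)) * vol (G.ex xh '' P) := by
      rw [hPimg, hQimg]
      calc vol (SoB u (2 * h) y0 xh B) ≤ ENNReal.ofReal CB * vol (cImg u S) := hvolSo
        _ = ENNReal.ofReal (CB / (m * c1 * m)) *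
            (ENNReal.ofReal (m * c1 * m) * vol (cImg u S)) := by
            rw [← mul_assoc, ← ENNReal.ofReal_mul (by positivity)]
            congr 2
            field_simp
        _ ≤ ENNReal.ofReal (CB / (m * c1 * m)) * vol Yc := by gcongr
    -- Lebesgue comparison
    obtain ⟨mE, hBE, μ, hμ, J, hW⟩ := hW xh
    have hfd : FiniteDimensional ℝ (TangentSpace (𝓡 n) xh) := CC0227.finiteDim xh
    have hQcomp : IsCompact Q := by
      have := Step2_892.isCompact_QB G (Sec u (2 * h) y0) y0 xh (B * (2 * h))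
      exact this
    have hleb := WOff915.leb (μ := μ) hC0 hc0 hW hconv hQcomp (fun p hp => hp.1) hPQ hPcomp
      (by positivity : 0 < CB / (m * c1 * m)) hvol (by rw [hPimg]; exact hYpos)
      (by rw [hPimg]; exact hYfin)
    rw [EStep1700.finrank_tangent] at hleb
    have hμP : μ P ≠ 0 := by
      intro h0
      have h1 := hW.le P (fun p hp => hp.1) hPcomp
      rw [Measure.restrict_eq_zero.2 h0, lintegral_zero_measure, mul_zero] at h1
      rw [hPimg] at h1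
      exact hYpos (le_antisymm h1 zero_le)
    have hμPfin : μ P ≠ ⊤ := hPcomp.measure_lt_top.ne
    have hcount := Count964.count_bound μ (id : TangentSpace (𝓡 n) xh → _) continuous_id
      (K := Q) (Q := Q) (P := P) hconv (fun p hp => hp) hPQ hPcomp
      (Eventually.of_forall fun y p _ q _ hp hq => hp.trans hq.symm)
      (fun p => ν (G.ex xh p)) hτ0 hτ1 hqq hνC hpLQ (cW := (1 / 2) ^ n) (by positivity)
      (CB := c0⁻¹ * (4 ^ n + 2 ^ n) * C0 ^ 2 * (CB / (m * c1 * m)))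
      (by positivity)
      (fun t ht0 ht1 => by
        have := WOff915.le_copy (μ := μ) pL (P := P) ht0 ht1
        rw [EStep1700.finrank_tangent] at this
        simpa using this)
      (by simpa using hleb)
      (by simpa using hμP) (by simpa using hμPfin) k hk1 hk
    simp only [id] at hcount
    rw [hpLy] at hcount
    have e4 : Dd u x y = Dd u x y0 - Dd u xh y0 + Dd u xh y + ν y := by
      simp only [hν]; unfold Fd Dd; ring
    have e5 : (2 : ℝ) ^ (k + 1) * (2 * C1 * (2 * h)) = 2 ^ (k + 3) * C1 * h := by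
      rw [pow_add, pow_add]; ring
    rw [e5] at hcount
    have b3 := Dd_nonneg hu xh y0
    rw [e4]
    nlinarith
  -- conclusion
  set h0 : ℝ := max (Dd u x y0) (max (Dd u xh y0) (Dd u xh y)) with hh0
  have hb1 : Dd u x y0 ≤ h0 := le_max_left _ _
  have hb2 : Dd u xh y0 ≤ h0 := (le_max_left _ _).trans (le_max_right _ _)
  have hb3 : Dd u xh y ≤ h0 := (le_max_right _ _).trans (le_max_right _ _)
  have hK0 : 0 < 2 + 2 ^ (k + 3) * C1 := by positivity
  have h00 : 0 ≤ h0 := (Dd_nonneg hu x y0).trans hb1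
  refine le_of_forall_pos_le_add fun ε hε => ?_
  have hδ : 0 < ε / (2 + 2 ^ (k + 3) * C1) := by positivity
  have := main (h0 + ε / (2 + 2 ^ (k + 3) * C1)) (by linarith) (by linarith) (by linarith)
    (by linarith)
  have e6 : (2 + 2 ^ (k + 3) * C1) * (h0 + ε / (2 + 2 ^ (k + 3) * C1)) =
      (2 + 2 ^ (k + 3) * C1) * h0 + ε := by
    field_simp
  linarith


/-- **Theorem 1 from weak (Q) and (W) off the foot**, uniform version. -/
theorem engulf_woff (vol : Measure M) [IsFiniteMeasure vol] [vol.IsOpenPosMeasure]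
    (hC : CutFacts G) (hD : DFacts G) (hg : GoodAll G)
    {τ : ℝ} (hτ0 : 0 < τ) (hτ1 : τ < 1) (hQ : QQw G τ)
    {C0 c0 : ℝ} (hC0 : 0 < C0) (hc0 : 0 < c0) (hW : ∀ x, WOffAt G vol C0 c0 x)
    {m : ℝ} (hm : 0 < m) :
    ∃ K0 : ℝ, 0 < K0 ∧ ∀ u : M → ℝ, CConv u → AlexPinch vol u m → EngulfP K0 u := by
  have hJ := jConv_of_wOff hC0 hc0 hW
  obtain ⟨C1, c1, hc1, h1⟩ := step1P_conv hC hg hτ0 hQ hJ
  obtain ⟨CB, hCB, h2⟩ := step2P_conv hC hD hg hτ0 hτ1.le hQ hJ (max (2 * max C1 0) (3 / 2))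
    (le_trans (by norm_num) (le_max_right _ _))
  obtain ⟨k, hk1, hk⟩ := exists_k hτ0 hτ1
    (show 0 < (1 / 2) ^ n / (2 * (c0⁻¹ * (4 ^ n + 2 ^ n) * C0 ^ 2 * (CB / (m * c1 * m)))) by
      positivity)
  refine ⟨2 + 2 ^ (k + 3) * max C1 0, by positivity, fun u hu hP => ?_⟩
  refine engulf_of_steps_woff vol hτ0 hτ1 hQ hC0 hc0 hW (le_max_right _ _) hc1 hm hCB
    (le_max_left _ _) (le_max_right _ _) hk1 hk hu hP ?_ (h2 u hu)
  intro y0 h hh
  obtain ⟨S', a1, a2, a3, a4⟩ := h1 u hu y0 h hh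
  refine ⟨S', a1, a2, a3, fun x' hx' y hy x hx => (a4 x' hx' y hy x hx).trans ?_⟩
  exact mul_le_mul_of_nonneg_right (le_max_left _ _) hh.le

end Eng

section Main

variable {n : ℕ} {M : Type*} [MetricSpace M] [ChartedSpace (EuclideanSpace ℝ (Fin n)) M]
  [IsManifold (𝓡 n) ∞ M]
  [RiemannianBundle (fun p : M => TangentSpace (𝓡 n) p)]
  [IsContMDiffRiemannianBundle (𝓡 n) ∞ (EuclideanSpace ℝ (Fin n))
    (fun p : M => TangentSpace (𝓡 n) p)]
  [IsRiemannianManifold (𝓡 n) M] [CompactSpace M] [MeasurableSpace M] [BorelSpace M]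

/-- **S0350 from (Q) and (W) off the foot**. -/
theorem s0350_of_QWoff (hn : 2 ≤ n) [Nonempty M] (hMTW : SatisfiesWeakMTW M n)
    (hQW : ∀ G : GeoData n M, CutFacts G → MTWFacts G → DFacts G → GoodAll G →
      (∃ τ : ℝ, 0 < τ ∧ τ < 1 ∧ QQw G τ) ∧
      (∃ C c : ℝ, 0 < C ∧ 0 < c ∧
        ∀ x, WOffAt G (Measure.hausdorffMeasure (n : ℝ) : Measure M) C c x))
    (lam Lam : ℝ) (hlam : 0 < lam) (hle : lam ≤ Lam) :
    ∃ α : ℝ, 0 < α ∧ α ≤ 1 ∧ ∃ C : ℝ, ∀ ρ₀ ρ₁ : M → ℝ, Measurable ρ₀ → Measurable ρ₁ →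
      (∀ᵐ x ∂(Measure.hausdorffMeasure (n : ℝ) : Measure M),
        lam ≤ ρ₀ x ∧ ρ₀ x ≤ Lam ∧ lam ≤ ρ₁ x ∧ ρ₁ x ≤ Lam) →
      (∫⁻ x, ENNReal.ofReal (ρ₀ x) ∂(Measure.hausdorffMeasure (n : ℝ) : Measure M)) = 1 →
      (∫⁻ x, ENNReal.ofReal (ρ₁ x) ∂(Measure.hausdorffMeasure (n : ℝ) : Measure M)) = 1 →
      ∀ T : M → M,
        IsMongeOptimal ((Measure.hausdorffMeasure (n : ℝ)).withDensity fun x =>
            ENNReal.ofReal (ρ₀ x))
          ((Measure.hausdorffMeasure (n : ℝ)).withDensity fun x => ENNReal.ofReal (ρ₁ x)) T →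
        ∃ Th : M ≃ₜ M,
          (∀ᵐ x ∂((Measure.hausdorffMeasure (n : ℝ)).withDensity fun x =>
            ENNReal.ofReal (ρ₀ x)), T x = Th x) ∧
          (∀ x x' : M, dist (Th x) (Th x') ≤ C * dist x x' ^ α) ∧
          (∀ y y' : M, dist (Th.symm y) (Th.symm y') ≤ C * dist y y' ^ α) := by
  refine EMain915.s0350_of_engulf hn hMTW ?_ lam Lam hlam hle
  intro G hC hM hD hg m hm
  obtain ⟨⟨τ, hτ0, hτ1, hQ⟩, ⟨C0, c0, hC0, hc0, hW⟩⟩ := hQW G hC hM hD hg
  have := VolChart767.isFiniteMeasure (n := n) (M := M)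
  have := VolChart767.isOpenPosMeasure (n := n) (M := M)
  obtain ⟨K0, _, H⟩ := engulf_woff (Measure.hausdorffMeasure (n : ℝ) : Measure M) hC hD hg hτ0 hτ1
    hQ hC0 hc0 hW hm
  exact ⟨K0, H⟩

end Main

end Crest.Agent.R226.EngW915
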