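/-
R226 (helper619): **Half 1** of Plan_619 (new mass at top level), assembled from
`start_pair` (544), the copies (301), the segment form of the common parent (881, typed by 464),
the contacts (486), the slope law (977), the contact volumes (977), W-nc (344), the depth
bound (946) and the area formula (344).
-/
import Crest.Agent.R226.Plan_619
import Crest.Agent.R226.EContact_486
import Crest.Agent.R226.TukeyMass_544
import Crest.Agent.R226.CopiesGeo_301
import Crest.Agent.R226.Alex_977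
import Crest.Agent.R226.SlopeLaw_977
import Crest.Agent.R226.WNc_344
import Crest.Agent.R226.Depth_946
import Crest.Agent.R226.CutAsm_823
import Crest.Agent.R226.Jac6_344
import Crest.Agent.R226.ParentSeg_464

set_option autoImplicit false
set_option linter.unusedSectionVars false
set_option linter.unusedVariables false

open MeasureTheory Bundle Set Filter
open scoped Manifold ContDiff Bundle ENNReal Topology RealInnerProductSpace
open Crest.GeometryTopology.MTW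

namespace Crest.Agent.R226.Half1_619

open Crest.Agent.R226 Crest.Agent.R226.Kant624 Crest.Agent.R226.Reduction624
  Crest.Agent.R226.HolderEnd915 Crest.Agent.R226.E1Shape964 Crest.Agent.R226.Dasm290
  Crest.Agent.R226.Osc977 Crest.Agent.R226.Far977 Crest.Agent.R226.NG487
  Crest.Agent.R226.SupPair413 Crest.Agent.R226.YStar544 Crest.Agent.R226.WNc344
  Crest.Agent.R226.WOff915

section Geo

variable {n : ℕ} {M : Type*} [MetricSpace M] [ChartedSpace (EuclideanSpace ℝ (Fin n)) M]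
  [IsManifold (𝓡 n) ∞ M]
  [RiemannianBundle (fun p : M => TangentSpace (𝓡 n) p)]
  [CompactSpace M] {G : GeoData n M}

/-- **Loeper on a segment of the far chart**: who sees `exp r`, `r ∈ [zN, zF]`, sees one end. -/
theorem seg_split (hg : GoodAll G) {u : M → ℝ} (hu : CConv u) {x1 x' : M}
    {zN zF r : TangentSpace (𝓡 n) x1} (hN : zN ∈ G.K x1) (hF : zF ∈ G.K x1)
    (hr : r ∈ segment ℝ zN zF) {H h : ℝ} (hx : Dd u x' (G.ex x1 r) ≤ H)
    (hN1 : Dd u x1 (G.ex x1 zN) ≤ h) (hF1 : Dd u x1 (G.ex x1 zF) ≤ h) :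
    Dd u x' (G.ex x1 zN) ≤ H + h ∨ Dd u x' (G.ex x1 zF) ≤ H + h := by
  have huc := CConv.continuous hu
  rw [segment_eq_image'] at hr
  obtain ⟨t, ht, rfl⟩ := hr
  have hmem : zN + t • (zF - zN) ∈ G.K x1 :=
    (convex_K hg x1).add_smul_sub_mem hN hF ht
  have h1 := SlopeLaw977.Fq_le_max hg x' hN hF ht.1 ht.2
  have e0 := Fq_eq (G := G) (u := u) (x := x') hmem
  have eN := Fq_eq (G := G) (u := u) (x := x') hN
  have eF := Fq_eq (G := G) (u := u) (x := x') hF
  have n1 := Dd_nonneg huc x1 (G.ex x1 (zN + t • (zF - zN)))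
  simp only at hx
  rcases le_max_iff.1 h1 with h2 | h2
  · left
    linarith
  · right
    linarith

/-- the two properties of a contact `x'` of a point of `W`. -/
theorem contact_W (hg : GoodAll G) (hS : SlopeLaw G) {u : M → ℝ} (hu : CConv u)
    {x1 x' : M} {ps p r zN zF : TangentSpace (𝓡 n) x1} {h s k : ℝ} (hh : 0 < h) (hs0 : 0 < s)
    (hs1 : s ≤ 1)
    (hps : ps ∈ G.K x1) (hDs : Dd u x1 (G.ex x1 ps) ≤ 2 * h)
    (hstar : Dd u x1 (G.ex x1 ps) + s * (u x' - u x1) - h ≤ Dd u x' (G.ex x1 ps))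
    (hp : p ∈ G.K x1) (hDp : Dd u x1 (G.ex x1 p) ≤ h)
    (hN : zN ∈ G.K x1) (hDN : Dd u x1 (G.ex x1 zN) ≤ h)
    (hF : zF ∈ G.K x1) (hDF : Dd u x1 (G.ex x1 zF) ≤ h)
    (hk0 : 0 < k) (hk1 : k ≤ 1) (hr : r ∈ segment ℝ zN zF)
    (hout : 0 ≤ (⟪con ps (k / 4) p, r - con ps (k / 4) p⟫ : ℝ))
    (hx1 : Dd u x' (G.ex x1 (con ps (k / 4) p + (1 / 2 : ℝ) • (r - con ps (k / 4) p))) = 0)
    (hx2 : Dd u x' (G.ex x1 (ps + (1 / 2 : ℝ) • (r - ps) + (k / 8) • (p - ps))) = 0) :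
    (Dd u x' (G.ex x1 zN) ≤ 9 * h ∨ Dd u x' (G.ex x1 zF) ≤ 9 * h) ∧
      u x' - u x1 ≤ 103 * h / s := by
  have hrow1 := EContact486.convex_row hg hu x1 h (G := G)
  have hrow2 := EContact486.convex_row hg hu x1 (2 * h) (G := G)
  have hrm : r ∈ {p : TangentSpace (𝓡 n) x1 | p ∈ G.K x1 ∧ Dd u x1 (G.ex x1 p) ≤ h} :=
    hrow1.segment_subset ⟨hN, hDN⟩ ⟨hF, hDF⟩ hr
  obtain ⟨hrK, hrD⟩ := hrm
  have hpbm : con ps (k / 4) p ∈
      {p : TangentSpace (𝓡 n) x1 | p ∈ G.K x1 ∧ Dd u x1 (G.ex x1 p) ≤ 2 * h} := by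
    have := hrow2.add_smul_sub_mem (x := ps) (y := p) ⟨hps, hDs⟩ ⟨hp, by linarith⟩
      (t := k / 4) ⟨by linarith, by linarith⟩
    exact this
  obtain ⟨hpbK, hpbD⟩ := hpbm
  constructor
  · have h1 := EContact486.contact_sees hg hu hpbK hrK (H := 2 * h) (ε := 0) (τ := 1 / 2)
      (by linarith) le_rfl hpbD (by linarith) hout (by norm_num) (by norm_num) hx1.le
    have h2 : Dd u x' (G.ex x1 r) ≤ 8 * h := by linarith
    rcases seg_split hg hu hN hF hr h2 hDN hDF with h3 | h3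
    · left; linarith
    · right; linarith
  · have h1 := EContact486.contact_top hg hS hu hps hp hrK (α := 1 / 2) (β := k / 8) (t := 5 / 8)
      (s := s) (h := h) (H1 := 2 * h) (ε := 0) (by norm_num) (by linarith) (by linarith)
      (by norm_num) hs0.le hs1 hh.le le_rfl hstar hDs (by linarith) (by linarith) hx2.le
    have h2 := EContact486.contact_top' (t := 5 / 8) (by norm_num) hs0 h1
    refine h2.trans ?_
    rw [div_le_div_iff_of_pos_right hs0]
    norm_num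
    linarith

end Geo

section Abs

theorem isCompact_copies {E : Type*} [NormedAddCommGroup E] [InnerProductSpace ℝ E]
    [FiniteDimensional ℝ E] [MeasurableSpace E] [BorelSpace E] {A : Set E}
    (hA : IsCompact A) (p₀ : E) (N : ℕ) : IsCompact (Copies301.copies p₀ N A) := by
  unfold Copies301.copies
  exact (Finset.range N).isCompact_biUnion fun k _ => hA.image (continuous_con p₀ _)

theorem ofReal_div_le {a b : ℝ} {x : ℝ≥0∞} (hb : 0 < b)
    (h : ENNReal.ofReal a ≤ ENNReal.ofReal b * x) : ENNReal.ofReal (a / b) ≤ x := by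
  rw [ENNReal.ofReal_div_of_pos hb]
  exact ENNReal.div_le_of_le_mul' h

end Abs

section Main

variable {n : ℕ} {M : Type*} [MetricSpace M] [ChartedSpace (EuclideanSpace ℝ (Fin n)) M]
  [IsManifold (𝓡 n) ∞ M]
  [RiemannianBundle (fun p : M => TangentSpace (𝓡 n) p)]
  [CompactSpace M] [IsRiemannianManifold (𝓡 n) M]
  [IsContMDiffRiemannianBundle (𝓡 n) ∞ (EuclideanSpace ℝ (Fin n))
    (fun p : M => TangentSpace (𝓡 n) p)] {G : GeoData n M} [MeasurableSpace M] [BorelSpace M]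

theorem AA_eq (u : M → ℝ) (x0 x1 : M) (h : ℝ) (p0 : TangentSpace (𝓡 n) x1) :
    TukeyMass544.AA G u x0 x1 p0 h = CopiesGeo301.AA G u x0 x1 h p0 := by
  have e : ∀ p : TangentSpace (𝓡 n) x1, (inner ℝ (p - p0) p0 : ℝ) = ⟪p0, p⟫ - ⟪p0, p0⟫ := by
    intro p
    rw [inner_sub_left, real_inner_comm]
  ext p
  constructor
  · rintro ⟨h1, h2, h3, h4⟩
    rw [e] at h4
    exact ⟨h1, h3, h2, by linarith⟩
  · rintro ⟨h1, h2, h3, h4⟩
    refine ⟨h1, h3, h2, ?_⟩
    rw [e]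
    linarith

set_option maxHeartbeats 2000000 in
/-- **Half 1** of Plan_619 (new mass at top level). -/
theorem half1P [IsFiniteMeasure (Measure.hausdorffMeasure (n : ℝ) : Measure M)]
    (hB : Base347.Base G) (hC : CutFacts G) (hM : MTWFacts G) (hg : GoodAll G)
    {m : ℝ} (hm : 0 < m) :
    Plan619.Half1P (Measure.hausdorffMeasure (n : ℝ) : Measure M) m := by
  classical
  obtain ⟨c, hc, hdep⟩ := Depth946.depth_D1 hB
  obtain ⟨cW, hcW, hcW1, hW⟩ := wncP hC hM hg hc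
    (fun x p hp s hs hs' v => hdep x p hp s hs hs' v) (κ := 1 / 1024) (τ := 1 / 4)
    (by norm_num) (by norm_num)
  obtain ⟨CA, hCA, harea⟩ := Jac344.exists_area hC
  obtain ⟨CP, hCP, hPS⟩ := ParentSeg464.parent_seg_unif n hcW
  have hSL : SlopeLaw G := SlopeLaw977.slope_law hC hg
  set vol : Measure M := (Measure.hausdorffMeasure (n : ℝ) : Measure M) with hvol
  have hn : (0 : ℝ) < n + 1 := by positivity
  set d : ℝ := cW * (1 / 2) ^ n with hd
  have hdpos : 0 < d := by positivity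
  set κ0 : ℝ := m * d / (CA * CP * ((n + 1) * CA)) with hκ0
  have hκ0pos : 0 < κ0 := by positivity
  refine ⟨6, 1 / (n + 1), 103, 10, by positivity, by norm_num, by norm_num, ?_⟩
  intro B hB
  obtain ⟨N0, hN0⟩ := exists_nat_gt (2 * B / κ0)
  set N : ℕ := N0 + 1 with hNdef
  have hN : 0 < N := by omega
  have hN1 : (1 : ℝ) ≤ N := by exact_mod_cast hN
  have hNB : 2 * B ≤ N * κ0 := by
    have h1 : 2 * B < N0 * κ0 := by rwa [div_lt_iff₀ hκ0pos] at hN0
    have h2 : (N0 : ℝ) ≤ N := by exact_mod_cast (Nat.le_succ N0)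
    have h3 : (N0 : ℝ) * κ0 ≤ N * κ0 := mul_le_mul_of_nonneg_right h2 hκ0pos.le
    linarith
  have hP16 : (16 : ℝ) ≤ (2 * N) ^ 4 := by
    have h1 : (2 : ℝ) ≤ 2 * N := by linarith
    calc (16 : ℝ) = 2 ^ 4 := by norm_num
      _ ≤ (2 * N) ^ 4 := by gcongr
  set P : ℝ := (2 * (N : ℝ)) ^ 4 with hP
  have hPpos : 0 < P := by linarith
  refine ⟨1 / (4 * P), by positivity, ?_⟩
  intro δ hδ hδ0
  have hδP : 4 * P * δ ≤ 1 := by
    rw [le_div_iff₀ (by positivity)] at hδ0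
    linarith
  have hδ1 : δ ≤ 1 := by
    have h1 : δ * 1 ≤ δ * (4 * P) := mul_le_mul_of_nonneg_left (by linarith) hδ.le
    linarith
  refine ⟨2 / δ, by positivity, ?_⟩
  intro u hu x₀ x₁ h hh hC1h hV hNG
  have huC : CConv u := hu.1
  have huc := CConv.continuous huC
  obtain ⟨a, ha⟩ : ∃ a : ℝ, a = u x₀ - u x₁ := ⟨_, rfl⟩
  rw [← ha] at hC1h hNG
  have hda : 2 * h ≤ δ * a := by
    have h1 := mul_le_mul_of_nonneg_left hC1h hδ.le
    calc 2 * h = δ * (2 / δ * h) := by field_simp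
      _ ≤ δ * a := h1
  have hda0 : 0 < δ * a := by linarith
  have hapos : 0 < a := by
    by_contra hneg
    push Not at hneg
    have := mul_nonpos_of_nonneg_of_nonpos hδ.le hneg
    linarith
  have hah : h < a := by
    have h1 : δ * a ≤ 1 * a := mul_le_mul_of_nonneg_right hδ1 hapos.le
    linarith
  obtain ⟨s, hs⟩ : ∃ s : ℝ, s = h / (δ * a) := ⟨_, rfl⟩
  obtain ⟨hs0, hs1, p0, hp0, hps, hD0, hDs, hstar, hVp⟩ :=
    TukeyMass544.start_pair hC (CutAsm823.dFacts G) hg (vol := vol)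
      (Measure.AbsolutelyContinuous.rfl) huC (x0 := x₀) (x1 := x₁) hh hδ ha hs hda hNG
  have hs1' : s ≤ 1 := by linarith
  have hsa : s * (δ * a) = h := by rw [hs, div_mul_cancel₀ _ hda0.ne']
  rw [AA_eq] at hVp
  obtain ⟨ms, bs, μ, hμ, J, hJm, hJ, hup, hlow⟩ := harea x₁
  set A := CopiesGeo301.AA G u x₀ x₁ h p0 with hA
  have hAc : IsCompact A := CopiesGeo301.isCompact_AA huC x₀ x₁ h p0
  have hAK : A ⊆ G.K x₁ := fun p hp => hp.1
  set 𝒢 := Copies301.copies ((1 - s) • p0) N A with h𝒢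
  have h𝒢c : IsCompact 𝒢 := isCompact_copies hAc _ _
  have h𝒢K : 𝒢 ⊆ G.K x₁ := fun p hp =>
    (CopiesGeo301.copies_subset_QS hg huC (h' := 2 * h) (by linarith) hs0.le hs1' hp0 hDs hN hp).1
  have hgap : 2 * h < (1 / (2 * (N : ℝ))) ^ 4 * (s * (u x₀ - u x₁) - 2 * h) := by
    have e1 : (1 / (2 * (N : ℝ))) ^ 4 = 1 / P := by rw [hP, one_div_pow]
    rw [e1, ← ha, one_div, ← div_eq_inv_mul, lt_div_iff₀ hPpos]
    have e2 : 4 * P * h ≤ s * a := by
      have e3 : 4 * P * h = (4 * P * δ) * (s * a) := by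
        rw [← hsa]; ring
      rw [e3]
      have e4 : 0 ≤ s * a := mul_nonneg hs0.le hapos.le
      exact mul_le_of_le_one_left e4 hδP
    have e5 : 16 * h ≤ P * h := mul_le_mul_of_nonneg_right hP16 hh.le
    have e6 : 2 * h * P = 2 * (P * h) := by ring
    have e7 : 4 * P * h = 4 * (P * h) := by ring
    linarith
  have hmass := CopiesGeo301.mass_copies_AA hC hg huC (x0 := x₀) (x1 := x₁) hh.le
    (by rw [← ha]; exact hah) hs0.le hs1' hp0 hD0 hN hgap (μ := μ) (J := J) hcW.le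
    (κ := 1 / 1024) (by norm_num)
    (CopiesGeo301.WNcJ.of_WNcP (hW x₁ J hJ) (by norm_num))
  rw [← hA, ← h𝒢, ← hd] at hmass
  have hVA : 0 < (vol (G.ex x₁ '' A)).toReal := by
    by_contra hneg
    push Not at hneg
    have : (n + 1 : ℝ) * (vol (G.ex x₁ '' A)).toReal ≤ 0 := by nlinarith
    linarith
  set VA : ℝ := (vol (G.ex x₁ '' A)).toReal with hVAdef
  have hIA : ENNReal.ofReal (VA / CA) ≤ ∫⁻ p in A, J p ∂μ := by
    refine ofReal_div_le hCA ?_
    rw [hVAdef, ENNReal.ofReal_toReal (measure_ne_top vol _)]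
    exact hup A hAK hAc
  have hI𝒢 : ENNReal.ofReal (N * (d * (VA / CA))) ≤ ∫⁻ p in 𝒢, J p ∂μ := by
    refine le_trans ?_ hmass
    rw [ENNReal.ofReal_mul (by positivity), ENNReal.ofReal_mul hdpos.le, ENNReal.ofReal_natCast]
    gcongr
  have hne0 : ∫⁻ p in 𝒢, J p ∂μ ≠ 0 := by
    intro h0
    rw [h0] at hI𝒢
    have h1 : N * (d * (VA / CA)) ≤ 0 := by
      rw [← ENNReal.ofReal_eq_zero]
      exact le_antisymm hI𝒢 bot_le
    have h2 : 0 < N * (d * (VA / CA)) := by positivity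
    linarith
  have hnet : ∫⁻ p in 𝒢, J p ∂μ ≠ (⊤ : ℝ≥0∞) := by
    refine ne_top_of_le_ne_top ?_ (hlow 𝒢 h𝒢K h𝒢c)
    exact ENNReal.mul_ne_top ENNReal.ofReal_ne_top (measure_ne_top vol _)
  have hfin : FiniteDimensional ℝ (TangentSpace (𝓡 n) x₁) :=
    inferInstanceAs (FiniteDimensional ℝ (EuclideanSpace ℝ (Fin n)))
  have hrank : Module.finrank ℝ (TangentSpace (𝓡 n) x₁) = n := by
    have : Module.finrank ℝ (EuclideanSpace ℝ (Fin n)) = n := by simp
    exact this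
  obtain ⟨zN, hzN, zF, hzF, W, hWK, hWc, hWI, hWp⟩ := hPS (TangentSpace (𝓡 n) x₁) hrank μ
    (G.K x₁) J (convex_K hg x₁) (hW x₁ J hJ) ((1 - s) • p0) hps A hAK
    (fun p hp => CopiesGeo301.inward_AA hp hs0.le hs1') 𝒢 h𝒢K h𝒢c
    (fun q hq => by
      obtain ⟨t, ht, ht1, p, hp, hpq⟩ := Copies301.exists_of_mem_copies hN hq
      exact ⟨p, hp, t, ht, ht1, hpq.symm⟩) hne0 hnet
  have hIW : ENNReal.ofReal (N * (d * (VA / CA)) / CP) ≤ ∫⁻ p in W, J p ∂μ :=
    ofReal_div_le hCP (hI𝒢.trans hWI)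
  have hX0v := Alex977.toReal_le_contX_image (G := G) (vol := vol) hCA hm.le huC hu.2.2 (μ := μ)
    hlow hWK hWc hIW
  set X0 : Set M := Alex977.contX u (G.ex x₁ '' W) with hX0
  have hX0c : IsCompact X0 := Alex977.isCompact_contX_image G huC hWc
  -- properties of the contacts
  have hX0p : ∀ x ∈ X0, (Dd u x (G.ex x₁ zN) ≤ 9 * h ∨ Dd u x (G.ex x₁ zF) ≤ 9 * h) ∧
      u x ≤ u x₁ + 103 * δ * (u x₀ - u x₁) := by
    intro x hx
    obtain ⟨p', hp', hx'⟩ := (Alex977.mem_contX_image G u x₁ W x).1 hx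
    obtain ⟨p, hp, k, hk0, hk1, r, hr, hcon, hout, e1, e2⟩ := hWp p' hp'
    have h1 := contact_W hg hSL huC (x1 := x₁) (x' := x) hh hs0 hs1' hps hDs (hstar x) hp.1
      hp.2.2.1 hzN.1 hzN.2.2.1 hzF.1 hzF.2.2.1 hk0 hk1 hr hout (by rw [← e1]; exact hx')
      (by rw [← e2]; exact hx')
    refine ⟨h1.1, ?_⟩
    have h2 : 103 * h / s = 103 * δ * (u x₀ - u x₁) := by
      rw [← ha, div_eq_iff hs0.ne', ← hsa]
      ring
    linarith [h1.2]
  have hcontD : ∀ y : M, Continuous fun x => Dd u x y := fun y =>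
    (Alex977.continuous_Dd2 huC).comp (continuous_id.prodMk continuous_const)
  set XX : TangentSpace (𝓡 n) x₁ → Set M := fun z => X0 ∩ {x | Dd u x (G.ex x₁ z) ≤ 10 * h}
    with hXX
  have hXXc : ∀ z, IsCompact (XX z) := fun z =>
    hX0c.inter_right (isClosed_le (hcontD _) continuous_const)
  have hcover : X0 ⊆ XX zN ∪ XX zF := by
    intro x hx
    rcases (hX0p x hx).1 with h1 | h1
    · left; exact ⟨hx, show Dd u x (G.ex x₁ zN) ≤ 10 * h by linarith⟩
    · right; exact ⟨hx, show Dd u x (G.ex x₁ zF) ≤ 10 * h by linarith⟩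
  have hvolsum : (vol X0).toReal ≤ (vol (XX zN)).toReal + (vol (XX zF)).toReal := by
    rw [← ENNReal.toReal_add (measure_ne_top vol _) (measure_ne_top vol _)]
    refine ENNReal.toReal_mono (by finiteness) ?_
    exact (measure_mono hcover).trans (measure_union_le _ _)
  have hfinal : 2 * (B * Vp vol u x₀ x₁ h) ≤ (vol X0).toReal := by
    refine le_trans ?_ hX0v
    have e1 : m / CA * (N * (d * (VA / CA)) / CP) = N * κ0 * ((n + 1) * VA) := by
      rw [hκ0]
      field_simp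
    rw [e1]
    have e2 : 2 * B * Vp vol u x₀ x₁ h ≤ N * κ0 * Vp vol u x₀ x₁ h :=
      mul_le_mul_of_nonneg_right hNB hV.le
    have e3 : N * κ0 * Vp vol u x₀ x₁ h ≤ N * κ0 * ((n + 1) * VA) :=
      mul_le_mul_of_nonneg_left hVp (by positivity)
    linarith
  have hmain : ∀ z ∈ A, B * Vp vol u x₀ x₁ h ≤ (vol (XX z)).toReal →
      ∃ (yF : M) (X : Set M), IsCompact X ∧ Dd u x₀ yF ≤ 10 * h ∧
          (∀ x ∈ X, Dd u x yF ≤ 10 * h ∧ u x ≤ u x₁ + 103 * δ * (u x₀ - u x₁)) ∧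
          B * Vp vol u x₀ x₁ h ≤ (vol X).toReal := by
    intro z hz hvz
    refine ⟨G.ex x₁ z, XX z, hXXc z, ?_, fun x hx => ⟨hx.2, (hX0p x hx.1).2⟩, hvz⟩
    have := hz.2.1
    linarith
  rcases le_total (vol (XX zN)).toReal (vol (XX zF)).toReal with h1 | h1
  · exact hmain zF hzF (by linarith)
  · exact hmain zN hzN (by linarith)

end Main

end Crest.Agent.R226.Half1_619
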