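/-
R226 / S0350, final glue (helper484): the conclusion of S0350 from `Half1P` (new mass at top
level; leaves of the crossing-free pair scheme of 579/619/227), everything else being proved:
`half2P` (114/115), `pairDichR_of_halves` (619), `estatement_of_pairsR` (413),
`uniform_biHolder` (624), `aeUnique` (225/915), `CutFacts`/`MTWFacts`/`DFacts`/`GoodAll` (823).
-/
import Crest.Agent.R226.EMain_915
import Crest.Agent.R226.NS1Top_115
import Crest.Agent.R226.Plan_619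

set_option autoImplicit false
set_option linter.unusedSectionVars false

open MeasureTheory Bundle Set Filter
open scoped Manifold ContDiff Bundle ENNReal Topology
open Crest.GeometryTopology.MTW

namespace Crest.Agent.R226.S350Glue484

open Crest.Agent.R226 Crest.Agent.R226.Kant624 Crest.Agent.R226.Reduction624
  Crest.Agent.R226.E1Shape964 Crest.Agent.R226.Dasm290 Crest.Agent.R226.SupPair413
  Crest.Agent.R226.Plan619 Crest.Agent.R226.EMain915

variable {n : ℕ} {M : Type*} [MetricSpace M] [ChartedSpace (EuclideanSpace ℝ (Fin n)) M]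
  [IsManifold (𝓡 n) ∞ M]
  [RiemannianBundle (fun p : M => TangentSpace (𝓡 n) p)]
  [IsContMDiffRiemannianBundle (𝓡 n) ∞ (EuclideanSpace ℝ (Fin n))
    (fun p : M => TangentSpace (𝓡 n) p)] [IsRiemannianManifold (𝓡 n) M]
  [CompactSpace M] [ConnectedSpace M]
  [MeasurableSpace M] [BorelSpace M]

/-- **S0350 from the pair dichotomy** `PairDichR`. -/
theorem s0350_of_pairDichR (hMTW : SatisfiesWeakMTW M n)
    (hPD : ∀ G : GeoData n M, CutFacts G → MTWFacts G → DFacts G → GoodAll G →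
      ∀ m : ℝ, 0 < m → PairDichR (Measure.hausdorffMeasure (n : ℝ) : Measure M) m)
    (lam Lam : ℝ) (hlam : 0 < lam) (hle : lam ≤ Lam) :
    ∃ α : ℝ, 0 < α ∧ α ≤ 1 ∧ ∃ C : ℝ, ∀ ρ₀ ρ₁ : M → ℝ, Measurable ρ₀ → Measurable ρ₁ →
      (∀ᵐ x ∂(Measure.hausdorffMeasure (n : ℝ) : Measure M),
        lam ≤ ρ₀ x ∧ ρ₀ x ≤ Lam ∧ lam ≤ ρ₁ x ∧ ρ₁ x ≤ Lam) →
      (∫⁻ x, ENNReal.ofReal (ρ₀ x) ∂(Measure.hausdorffMeasure (n : ℝ) : Measure M)) = 1 →
      (∫⁻ x, ENNReal.ofReal (ρ₁ x) ∂(Measure.hausdorffMeasure (n : ℝ) : Measure M)) = 1 →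
      ∀ T : M → M,
        IsMongeOptimal ((Measure.hausdorffMeasure (n : ℝ)).withDensity fun x =>
            ENNReal.ofReal (ρ₀ x))
          ((Measure.hausdorffMeasure (n : ℝ)).withDensity fun x => ENNReal.ofReal (ρ₁ x)) T →
        ∃ Th : M ≃ₜ M,
          (∀ᵐ x ∂((Measure.hausdorffMeasure (n : ℝ)).withDensity fun x =>
            ENNReal.ofReal (ρ₀ x)), T x = Th x) ∧
          (∀ x x' : M, dist (Th x) (Th x') ≤ C * dist x x' ^ α) ∧
          (∀ y y' : M, dist (Th.symm y) (Th.symm y') ≤ C * dist y y' ^ α) := by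
  have hne : Nonempty M := ConnectedSpace.toNonempty
  obtain ⟨G⟩ := CutAsm823.nonempty_geoData n M
  have hC := CutAsm823.cutFacts G
  have hD := CutAsm823.dFacts G
  have hg : GoodAll G := fun u hu => CutAsm823.good_one G hMTW u hu
  have hm : 0 < lam / Lam := div_pos hlam (hlam.trans_le hle)
  exact uniform_biHolder (Measure.hausdorffMeasure (n : ℝ) : Measure M) hlam hle (aeUnique G)
    (estatement_of_pairsR G hg _
      (hPD G hC (CutAsm823.mtwFacts G hMTW) hD hg _ hm))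

/-- **S0350 from `Half1P`**. -/
theorem s0350_of_half1 (hMTW : SatisfiesWeakMTW M n)
    (hH1 : ∀ G : GeoData n M, CutFacts G → MTWFacts G → DFacts G → GoodAll G →
      ∀ m : ℝ, 0 < m → Half1P (Measure.hausdorffMeasure (n : ℝ) : Measure M) m)
    (lam Lam : ℝ) (hlam : 0 < lam) (hle : lam ≤ Lam) :
    ∃ α : ℝ, 0 < α ∧ α ≤ 1 ∧ ∃ C : ℝ, ∀ ρ₀ ρ₁ : M → ℝ, Measurable ρ₀ → Measurable ρ₁ →
      (∀ᵐ x ∂(Measure.hausdorffMeasure (n : ℝ) : Measure M),
        lam ≤ ρ₀ x ∧ ρ₀ x ≤ Lam ∧ lam ≤ ρ₁ x ∧ ρ₁ x ≤ Lam) →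
      (∫⁻ x, ENNReal.ofReal (ρ₀ x) ∂(Measure.hausdorffMeasure (n : ℝ) : Measure M)) = 1 →
      (∫⁻ x, ENNReal.ofReal (ρ₁ x) ∂(Measure.hausdorffMeasure (n : ℝ) : Measure M)) = 1 →
      ∀ T : M → M,
        IsMongeOptimal ((Measure.hausdorffMeasure (n : ℝ)).withDensity fun x =>
            ENNReal.ofReal (ρ₀ x))
          ((Measure.hausdorffMeasure (n : ℝ)).withDensity fun x => ENNReal.ofReal (ρ₁ x)) T →
        ∃ Th : M ≃ₜ M,
          (∀ᵐ x ∂((Measure.hausdorffMeasure (n : ℝ)).withDensity fun x =>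
            ENNReal.ofReal (ρ₀ x)), T x = Th x) ∧
          (∀ x x' : M, dist (Th x) (Th x') ≤ C * dist x x' ^ α) ∧
          (∀ y y' : M, dist (Th.symm y) (Th.symm y') ≤ C * dist y y' ^ α) := by
  have := VolChart767.isFiniteMeasure (n := n) (M := M)
  refine s0350_of_pairDichR hMTW ?_ lam Lam hlam hle
  intro G hC hM hD hg m hm
  exact pairDichR_of_halves _ m (hH1 G hC hM hD hg m hm) (NS1Top115.half2P hC hM hg hm)

end Crest.Agent.R226.S350Glue484
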